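import Vale.Agent.P309.Phase

/-!
Iterating phases (P309).
-/

open MeasureTheory ProbabilityTheory
open scoped ENNReal RealInnerProductSpace

namespace Vale.Agent.P309

variable {d : ℕ} {σ : Type} [Fintype σ] [DecidableEq σ]

/-- Law of (state, stop index) after at most `K` steps of a phase. -/
noncomputable def Learner.run (L : Learner d σ) : (K : ℕ) → ℕ → σ → (Fin K → Euc d) →
    (Fin K → ℝ) → σ × Option (Fin K) → ℝ≥0∞
  | 0, _, z, _, _, a => if a.1 = z then 1 else 0
  | K + 1, t, z, X, y, (z₁, none) => ∑ z', L.step t z (X 0, y 0) z' false *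
      L.run K (t + 1) z' (fun i => X i.succ) (fun i => y i.succ) (z₁, none)
  | K + 1, t, z, X, y, (z₁, some i) =>
      Fin.cases (L.step t z (X 0, y 0) z₁ true)
        (fun j => ∑ z', L.step t z (X 0, y 0) z' false *
          L.run K (t + 1) z' (fun i => X i.succ) (fun i => y i.succ) (z₁, some j)) i

lemma Learner.run_meas (L : Learner d σ) : ∀ (K t : ℕ) (z : σ) (a : σ × Option (Fin K)),
    Measurable fun p : (Fin K → Euc d) × (Fin K → ℝ) => L.run K t z p.1 p.2 a := by
  intro K
  induction K with
  | zero => intro t z a; simp only [Learner.run]; exact measurable_const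
  | succ K ih =>
    intro t z a
    have hstep : ∀ z' b, Measurable fun p : (Fin (K + 1) → Euc d) × (Fin (K + 1) → ℝ) =>
        L.step t z (p.1 0, p.2 0) z' b := fun z' b =>
      (L.step_meas t z z' b).comp (by fun_prop)
    have htail : ∀ (z' : σ) (o : σ × Option (Fin K)),
        Measurable fun p : (Fin (K + 1) → Euc d) × (Fin (K + 1) → ℝ) =>
        L.run K (t + 1) z' (fun i => p.1 i.succ) (fun i => p.2 i.succ) o := fun z' o =>
      (ih (t + 1) z' o).comp (f := fun p : (Fin (K + 1) → Euc d) × (Fin (K + 1) → ℝ) =>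
        ((fun i : Fin K => p.1 (Fin.succ i)), fun i : Fin K => p.2 (Fin.succ i))) (by fun_prop)
    rcases a with ⟨z₁, _ | i⟩
    · simp only [Learner.run]
      exact Finset.measurable_sum _ fun z' _ => (hstep z' false).fun_mul (htail z' _)
    · simp only [Learner.run]
      induction i using Fin.cases with
      | zero => simpa using hstep z₁ true
      | succ j =>
        simp only [Fin.cases_succ]
        exact Finset.measurable_sum _ fun z' _ => (hstep z' false).fun_mul (htail z' _)

lemma Learner.run_expand (L : Learner d σ) (K t : ℕ) (z : σ) (X : Fin (K + 1) → Euc d)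
    (y : Fin (K + 1) → ℝ) (G : σ × Option (Fin (K + 1)) → ℝ≥0∞) :
    ∑ a, L.run (K + 1) t z X y a * G a
      = ∑ z', L.step t z (X 0, y 0) z' true * G (z', some 0)
        + ∑ z', L.step t z (X 0, y 0) z' false *
            ∑ a, L.run K (t + 1) z' (fun i => X i.succ) (fun i => y i.succ) a
              * G (a.1, a.2.map Fin.succ) := by
  simp only [Fintype.sum_prod_type, Fintype.sum_option, Fin.sum_univ_succ, Learner.run,
    Fin.cases_zero, Fin.cases_succ, Option.map_none, Option.map_some]
  simp only [Finset.sum_mul, Finset.sum_add_distrib, Finset.mul_sum, mul_add, mul_assoc]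
  rw [add_left_comm]
  congr 2
  · exact Finset.sum_comm
  · exact (Finset.sum_congr rfl fun z₁ _ => Finset.sum_comm).trans Finset.sum_comm

lemma Learner.run_sum (L : Learner d σ) : ∀ (K t : ℕ) (z : σ) (X : Fin K → Euc d)
    (y : Fin K → ℝ), ∑ a, L.run K t z X y a = 1 := by
  intro K
  induction K with
  | zero =>
    intro t z X y
    rw [Fintype.sum_prod_type]
    simp only [Fintype.sum_option, Learner.run]
    simp
  | succ K ih =>
    intro t z X y
    have h := L.run_expand K t z X y fun _ => 1
    simp only [mul_one, ih] at h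
    rw [h, ← L.step_sum t z (X 0, y 0), ← Finset.sum_add_distrib]
    exact Finset.sum_congr rfl fun z' _ => (Fintype.sum_bool _).symm

omit [DecidableEq σ] in
lemma measurable_hit (L : Learner d σ) (ε : ℝ) (t : ℕ) (z : σ) :
    Measurable (L.hit ε t z) := by
  have hS : MeasurableSet {p : Euc d × Euc d | Real.arccos ⟪p.2, p.1⟫ ≤ ε} :=
    measurableSet_le (by fun_prop) measurable_const
  exact measurable_measure_prodMk_left (ν := L.out t z) hS

omit [DecidableEq σ] in
lemma hit_le_one (L : Learner d σ) (ε : ℝ) (t : ℕ) (z : σ) (s : Euc d) : L.hit ε t z s ≤ 1 :=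
  prob_le_one

omit [DecidableEq σ] in
lemma measurable_win (L : Learner d σ) (ε : ℝ) : ∀ (r t : ℕ) (z : σ),
    Measurable (L.win ε r t z) := by
  intro r
  induction r with
  | zero => intro t z; exact measurable_hit L ε t z
  | succ r ih =>
    intro t z
    simp only [Learner.win]
    apply Measurable.lintegral_prod_right'
      (f := fun p : Euc d × Euc d => ∑ z', (L.step t z (p.2, ⟪p.2, p.1⟫) z' true
        * L.hit ε (t + 1) z' p.1
        + L.step t z (p.2, ⟪p.2, p.1⟫) z' false * L.win ε r (t + 1) z' p.1))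
    refine Finset.measurable_sum _ fun z' _ => ?_
    exact (((L.step_meas t z z' true).comp (by fun_prop)).fun_mul
        ((measurable_hit L ε _ z').comp measurable_fst)).fun_add
      (((L.step_meas t z z' false).comp (by fun_prop)).fun_mul
        ((ih _ z').comp measurable_fst))

omit [DecidableEq σ] in
lemma win_le_one (L : Learner d σ) (ε : ℝ) : ∀ (r t : ℕ) (z : σ) (s : Euc d),
    L.win ε r t z s ≤ 1 := by
  intro r
  induction r with
  | zero => intro t z s; exact hit_le_one L ε t z s
  | succ r ih =>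
    intro t z s
    simp only [Learner.win]
    calc _ ≤ ∫⁻ _, (1 : ℝ≥0∞) ∂stdGaussian (Euc d) := by
          refine lintegral_mono fun x => ?_
          rw [← L.step_sum t z (x, ⟪x, s⟫)]
          refine Finset.sum_le_sum fun z' _ => ?_
          rw [Fintype.sum_bool]
          exact add_le_add (mul_le_of_le_one_right' (hit_le_one L ε _ z' s))
            (mul_le_of_le_one_right' (ih _ z' s))
      _ = 1 := by simp

/-- What follows each outcome of a phase. -/
noncomputable def Learner.after (L : Learner d σ) (ε : ℝ) (r t : ℕ) {K : ℕ}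
    (a : σ × Option (Fin K)) (s : Euc d) : ℝ≥0∞ :=
  match a.2 with
  | none => L.win ε r (t + K) a.1 s
  | some i => L.hit ε (t + i + 1) a.1 s

lemma win_unfold (L : Learner d σ) (ε : ℝ) (r : ℕ) (s : Euc d) : ∀ (K t : ℕ) (z : σ),
    L.win ε (r + K) t z s
      = ∫⁻ X, ∑ a, L.run K t z X (labels X s) a * L.after ε r t a s ∂rows (Fin K) d := by
  intro K
  induction K with
  | zero =>
    intro t z
    simp only [Fintype.sum_prod_type, Fintype.sum_option, Learner.run, Learner.after]
    simp
  | succ K ih =>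
    intro t z
    have hlab : Measurable fun X : Fin (K + 1) → Euc d => labels X s :=
      measurable_labels.comp (measurable_const.prodMk measurable_id)
    have hm : Measurable fun X : Fin (K + 1) → Euc d =>
        ∑ a, L.run (K + 1) t z X (labels X s) a * L.after ε r t a s :=
      Finset.measurable_sum _ fun a _ =>
        ((L.run_meas _ t z a).comp (measurable_id.prodMk hlab)).mul_const _
    have hp := measurePreserving_piFinSuccAbove (α := fun _ : Fin (K + 1) => Euc d)
      (fun _ => stdGaussian (Euc d)) 0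
    rw [rows, ← hp.symm.lintegral_comp hm]
    refine Eq.trans ?_ (lintegral_prod _ (hm.comp hp.symm.measurable).aemeasurable).symm
    show L.win ε (r + K + 1) t z s = _
    simp only [Learner.win]
    refine lintegral_congr fun x => ?_
    simp only [Function.comp_def, MeasurableEquiv.piFinSuccAbove_symm_apply,
      Fin.insertNthEquiv_zero]
    have hex : ∀ X' : Fin K → Euc d,
        ∑ a, L.run (K + 1) t z (Fin.cons x X') (labels (Fin.cons x X') s) a * L.after ε r t a s
          = ∑ z', L.step t z (x, ⟪x, s⟫) z' true * L.hit ε (t + 1) z' s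
            + ∑ z', L.step t z (x, ⟪x, s⟫) z' false *
                ∑ a, L.run K (t + 1) z' X' (labels X' s) a * L.after ε r (t + 1) a s := by
      intro X'
      rw [L.run_expand]
      have e : (fun i => labels (Fin.cons x X' : Fin (K + 1) → Euc d) s (Fin.succ i))
          = labels X' s := funext fun i => by simp [labels_apply]
      rw [e]
      simp only [labels_apply, Fin.cons_zero]
      refine congrArg₂ (· + ·) rfl (Finset.sum_congr rfl fun z' _ => congrArg _
        (Finset.sum_congr rfl fun a _ => congrArg _ ?_))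
      rcases a with ⟨z₁, _ | j⟩
      · simp only [Learner.after, Option.map_none]
        rw [show t + (K + 1) = t + 1 + K by omega]
      · simp only [Learner.after, Option.map_some, Fin.val_succ]
        rw [show t + (↑j + 1) + 1 = t + 1 + ↑j + 1 by omega]
    have hin : ∀ z', Measurable fun X' : Fin K → Euc d =>
        ∑ a, L.run K (t + 1) z' X' (labels X' s) a * L.after ε r (t + 1) a s := fun z' =>
      Finset.measurable_sum _ fun a _ =>
        ((L.run_meas _ _ z' a).comp (measurable_id.prodMk
          (measurable_labels.comp (measurable_const.prodMk measurable_id)))).mul_const _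
    refine Eq.trans ?_ (lintegral_congr hex).symm
    rw [lintegral_add_left measurable_const, lintegral_const, measure_univ, mul_one,
      lintegral_finsetSum _ fun z' _ => (hin z').const_mul _, ← Finset.sum_add_distrib]
    refine Finset.sum_congr rfl fun z' _ => ?_
    rw [lintegral_const_mul _ (hin z'), ih (t + 1) z']
    rfl

lemma sphere_ae (hd : 1 ≤ d) : ∀ᵐ s ∂sphereUnif d, ‖s‖ = 1 := by
  have : NeZero d := ⟨by omega⟩
  rw [sphereUnif, ae_map_iff (by fun_prop) (measurableSet_eq_fun (by fun_prop) measurable_const)]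
  have hb := EuclideanSpace.basisFun (Fin d) ℝ
  have h0 : stdGaussian (Euc d) {0} = 0 := by
    rw [stdGaussian_eq_map_pi_orthonormalBasis hb,
      Measure.map_apply (by fun_prop) (MeasurableSet.singleton 0)]
    have hsub : (fun x : Fin d → ℝ => ∑ i, x i • hb i) ⁻¹' {0} ⊆ {0} := by
      intro x hx
      funext i
      have := hb.orthonormal.inner_right_fintype x i
      simp only [Set.mem_preimage, Set.mem_singleton_iff] at hx
      rw [hx, inner_zero_right] at this
      exact this.symm
    refine measure_mono_null hsub ?_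
    rw [← gpi, gpi_eq_withDensity]
    exact withDensity_absolutelyContinuous _ _ (by simp)
  have hne : ∀ᵐ g ∂stdGaussian (Euc d), g ≠ 0 := by
    rw [ae_iff]; simpa using h0
  filter_upwards [hne] with g hg
  exact norm_smul_inv_norm hg

lemma cap_bound {K : ℕ} (hK : 1 ≤ K) (hd : 2 * K + 2 ≤ d) {v : Euc d} (hv : ‖v‖ = 1) {ε : ℝ}
    (hε : 0 < ε) (hε1 : ε ≤ 1) :
    sphereUnif d {s | Real.arccos ⟪v, s⟫ ≤ ε}
      ≤ ENNReal.ofReal (4 * 2 ^ d * 80 ^ K * ε ^ (2 * K)) := by
  classical
  obtain ⟨b, hb⟩ := exists_adapted_basis (ι := Fin 1) (κ := Fin (d - 1))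
    (by simp; omega) (fun _ => v)
  have hb' : ∀ j, ⟪b (Sum.inr j), v⟫ = 0 := fun j => hb 0 j
  have hb0 : ⟪b (Sum.inl 0), v⟫ ^ 2 = 1 := by
    have := b.sum_sq_inner_right v
    simpa [Fintype.sum_sum_type, hb', hv] using this
  set a : Fin (2 * K) → Euc d := fun i => b (Sum.inr (Fin.castLE (by omega) i)) with ha
  have hgram : gram a = 1 := by
    ext i j
    simp only [gram, ha, Matrix.of_apply, b.inner_eq_ite, Matrix.one_apply]
    simp [Fin.castLE_inj]
  have hdet : (gram a).det = 1 := by rw [hgram, Matrix.det_one]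
  set S : Set (Fin (2 * K) → ℝ) := {y | ∑ i, y i ^ 2 ≤ ε ^ 2} with hS
  have hSm : MeasurableSet S := measurableSet_le (by fun_prop) measurable_const
  have hsub : ∀ᵐ s ∂sphereUnif d,
      {s | Real.arccos ⟪v, s⟫ ≤ ε}.indicator (1 : Euc d → ℝ≥0∞) s
        ≤ S.indicator 1 (fun i => ⟪a i, s⟫) := by
    filter_upwards [sphere_ae (by omega : 1 ≤ d)] with s hs
    by_cases h : Real.arccos ⟪v, s⟫ ≤ ε
    · have hmem : (fun i => ⟪a i, s⟫) ∈ S := by
        have habs := abs_real_inner_le_norm v s
        rw [hv, hs, mul_one] at habs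
        have hcos : Real.cos ε ≤ ⟪v, s⟫ := by
          rw [← Real.cos_arccos (abs_le.1 habs).1 (abs_le.1 habs).2]
          exact Real.cos_le_cos_of_nonneg_of_le_pi (Real.arccos_nonneg _)
            (by linarith [Real.pi_gt_three]) h
        have hcl : 1 - ε ^ 2 / 2 ≤ Real.cos ε := Real.one_sub_sq_div_two_le_cos
        have hexp := b.sum_sq_inner_right s
        have hvs : ⟪v, s⟫ ^ 2 = ⟪b (Sum.inl 0), s⟫ ^ 2 := by
          rw [← b.sum_inner_mul_inner v s, Fintype.sum_sum_type]
          have hb'' : ∀ j, ⟪v, b (Sum.inr j)⟫ = 0 := fun j => by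
            rw [real_inner_comm]; exact hb' j
          have hb0' : ⟪v, b (Sum.inl 0)⟫ ^ 2 = 1 := by rw [real_inner_comm]; exact hb0
          simp [hb'', mul_pow, hb0']
        rw [hs, one_pow, Fintype.sum_sum_type] at hexp
        simp only [Fin.sum_univ_one] at hexp
        have hle : ∑ i, ⟪a i, s⟫ ^ 2 ≤ ∑ j, ⟪b (Sum.inr j), s⟫ ^ 2 := by
          rw [← Finset.sum_image (g := fun i : Fin (2 * K) => Fin.castLE (by omega : 2 * K ≤ d - 1) i)
            (f := fun j => ⟪b (Sum.inr j), s⟫ ^ 2) (fun x _ y _ h => Fin.castLE_injective _ h)]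
          exact Finset.sum_le_univ_sum_of_nonneg fun j => sq_nonneg _
        simp only [hS, Set.mem_ofPred_eq]
        have h12 : (0 : ℝ) ≤ 1 - ε ^ 2 / 2 := by nlinarith
        have h13 : (1 - ε ^ 2 / 2) ^ 2 ≤ ⟪v, s⟫ ^ 2 :=
          pow_le_pow_left₀ h12 (hcl.trans hcos) 2
        nlinarith [sq_nonneg (ε ^ 2 / 2)]
      rw [Set.indicator_of_mem hmem]
      exact Set.indicator_le_self' (fun _ _ => zero_le) _
    · rw [Set.indicator_of_notMem (by simpa using h)]
      exact zero_le
  have hmc : MeasurableSet {s : Euc d | Real.arccos ⟪v, s⟫ ≤ ε} :=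
    measurableSet_le (by fun_prop) measurable_const
  rw [← lintegral_indicator_one hmc]
  refine (lintegral_mono_ae hsub).trans ?_
  refine (sphere_marginal (K := K) (m := d - 2 * K - 2) (by simp) (by omega) a
    (by rw [hdet]; norm_num) (measurable_one.indicator hSm)).trans ?_
  rw [hdet, Real.sqrt_one, div_one, lintegral_indicator_one hSm]
  set β : ℝ := K / ε ^ 2 with hβ
  have hK0 : (0 : ℝ) < K := by exact_mod_cast hK
  have hβ0 : 0 < β := by positivity
  have hvol : volume S ≤ ENNReal.ofReal (Real.exp K * (√(Real.pi / β)) ^ (2 * K)) := by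
    rw [← lintegral_indicator_one hSm]
    calc ∫⁻ y, S.indicator 1 y
        ≤ ∫⁻ y : Fin (2 * K) → ℝ, ENNReal.ofReal (Real.exp K) *
            ∏ i, ENNReal.ofReal (Real.exp (-β * y i ^ 2)) := by
          refine lintegral_mono fun y => ?_
          by_cases hy : y ∈ S
          · rw [Set.indicator_of_mem hy, Pi.one_apply,
              ← ENNReal.ofReal_prod_of_nonneg (fun _ _ => (Real.exp_pos _).le), ← Real.exp_sum,
              ← ENNReal.ofReal_mul (Real.exp_pos _).le, ← Real.exp_add, ← ENNReal.ofReal_one]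
            refine ENNReal.ofReal_le_ofReal ?_
            rw [Real.one_le_exp_iff, ← Finset.mul_sum]
            have h1 : β * ∑ i, y i ^ 2 ≤ β * ε ^ 2 := mul_le_mul_of_nonneg_left hy hβ0.le
            have h2 : β * ε ^ 2 = K := by rw [hβ]; field_simp
            linarith
          · rw [Set.indicator_of_notMem hy]; exact zero_le
      _ = ENNReal.ofReal (Real.exp K) * ENNReal.ofReal √(Real.pi / β) ^ (2 * K) := by
          rw [lintegral_const_mul' _ _ ENNReal.ofReal_ne_top, volume_pi,
            lintegral_prod_pi volume (fun (_ : Fin (2 * K)) t =>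
              ENNReal.ofReal (Real.exp (-β * t ^ 2))) (fun _ => by fun_prop)]
          rw [Finset.prod_const, Finset.card_univ, Fintype.card_fin,
            ← ofReal_integral_eq_lintegral_ofReal (integrable_exp_neg_mul_sq hβ0)
              (ae_of_all _ fun _ => (Real.exp_pos _).le), integral_gaussian]
      _ = _ := by
          rw [← ENNReal.ofReal_pow (Real.sqrt_nonneg _), ← ENNReal.ofReal_mul (Real.exp_pos _).le]
  refine (mul_le_mul_right hvol _).trans ?_
  rw [← ENNReal.ofReal_mul (by positivity)]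
  refine ENNReal.ofReal_le_ofReal ?_
  rw [pow_mul (√(Real.pi / β)), Real.sq_sqrt (by positivity), pow_mul ε, ← Real.exp_one_pow]
  have h80 : (8 : ℝ) ^ K * K.factorial * ((Real.exp 1) ^ K * (Real.pi / β) ^ K)
      ≤ 80 ^ K * (ε ^ 2) ^ K := by
    have hf : (K.factorial : ℝ) ≤ (K : ℝ) ^ K := by exact_mod_cast K.factorial_le_pow
    calc (8 : ℝ) ^ K * K.factorial * ((Real.exp 1) ^ K * (Real.pi / β) ^ K)
        ≤ (8 : ℝ) ^ K * (K : ℝ) ^ K * ((Real.exp 1) ^ K * (Real.pi / β) ^ K) := by gcongr
      _ = (8 * Real.exp 1 * Real.pi * ε ^ 2) ^ K := by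
          rw [← mul_pow, ← mul_pow, ← mul_pow, hβ]
          congr 1; field_simp
      _ ≤ (80 * ε ^ 2) ^ K := by
          refine pow_le_pow_left₀ (by positivity) ?_ K
          have h1 : Real.exp 1 ≤ 2.72 := by linarith [Real.exp_one_lt_d9]
          have h2 : Real.exp 1 * Real.pi ≤ 10 := by
            nlinarith [Real.exp_pos 1, Real.pi_lt_d2, Real.pi_pos]
          nlinarith [sq_nonneg ε]
      _ = _ := mul_pow _ _ _
  have h2d : (2 : ℝ) ^ (d - 2 * K - 2) ≤ 2 ^ d := pow_le_pow_right₀ one_le_two (by omega)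
  calc 4 * 2 ^ (d - 2 * K - 2) * (↑K.factorial * 8 ^ K) *
        (Real.exp 1 ^ K * (Real.pi / β) ^ K)
      = 4 * 2 ^ (d - 2 * K - 2) *
          (8 ^ K * ↑K.factorial * (Real.exp 1 ^ K * (Real.pi / β) ^ K)) := by ring
    _ ≤ 4 * 2 ^ d * (80 ^ K * (ε ^ 2) ^ K) := by gcongr
    _ = _ := by ring

omit [DecidableEq σ] in
lemma hit_int (L : Learner d σ) {ε : ℝ} {c : ℝ≥0∞}
    (hc : ∀ v : Euc d, ‖v‖ = 1 → sphereUnif d {s | Real.arccos ⟪v, s⟫ ≤ ε} ≤ c) (t : ℕ) (z : σ) :
    ∫⁻ s, L.hit ε t z s ∂sphereUnif d ≤ c := by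
  have hS : MeasurableSet {p : Euc d × Euc d | Real.arccos ⟪p.2, p.1⟫ ≤ ε} :=
    measurableSet_le (by fun_prop) measurable_const
  have h1 : ∫⁻ s, L.hit ε t z s ∂sphereUnif d
      = ((sphereUnif d).prod (L.out t z)) {p | Real.arccos ⟪p.2, p.1⟫ ≤ ε} :=
    (Measure.prod_apply hS).symm
  rw [h1, Measure.prod_apply_symm hS]
  have hae : ∀ᵐ v ∂L.out t z, v ∈ Metric.sphere (0 : Euc d) 1 := by
    rw [ae_iff]
    exact (prob_compl_eq_zero_iff Metric.isClosed_sphere.measurableSet).2 (L.out_sphere t z)
  calc _ ≤ ∫⁻ _, c ∂L.out t z := by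
        refine lintegral_mono_ae ?_
        filter_upwards [hae] with v hv
        exact hc v (by simpa using hv)
    _ = c := by simp

/-- Iterating the phase bound. -/
lemma chain (L : Learner d σ) {ε R : ℝ} {K n : ℕ} (hK : 1 ≤ K) (hn : n ≠ 0)
    (hdn : 2 * K + n ≤ d) (hd2 : 2 * K + 2 ≤ d) (θ : ℕ → ℝ) (hθ : ∀ k, 0 < θ k) {D c : ℝ≥0∞}
    (hD1 : 1 ≤ D) (hc1 : c ≤ 1)
    (hD : ∀ k, 1 ≤ k → k ≤ K → ENNReal.ofReal (phaseC d k (θ k) R) ^ (1 / 2 : ℝ)
      + (Fintype.card (σ × Option (Fin k)) : ℝ≥0∞) * phaseXi n k (θ k) ^ (1 / 2 : ℝ) ≤ D)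
    (hc : ∀ v : Euc d, ‖v‖ = 1 → sphereUnif d {s | Real.arccos ⟪v, s⟫ ≤ ε} ≤ c) :
    ∀ j r t z, r ≤ j * K → ∃ W : Euc d → ℝ≥0∞, Measurable W ∧
      ∫⁻ s, W s ∂sphereUnif d ≤ D * D * c ^ ((1 / 2 : ℝ) ^ j) ∧ (∀ s, W s ≤ 1) ∧
      ∀ s, ‖s‖ = 1 → L.win ε r t z s
        ≤ W s + (j : ℝ≥0∞) * ENNReal.ofReal (2 ^ K * Real.exp (-R / 4)) := by
  have hcap : ∀ j : ℕ, c ≤ D * D * c ^ ((1 / 2 : ℝ) ^ j) := by
    intro j
    calc c = 1 * c ^ (1 : ℝ) := by simp
      _ ≤ D * D * c ^ ((1 / 2 : ℝ) ^ j) := by
          refine mul_le_mul ?_ ?_ zero_le zero_le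
          · exact one_le_mul hD1 hD1
          · exact ENNReal.rpow_le_rpow_of_exponent_ge hc1
              (pow_le_one₀ (by norm_num) (by norm_num))
  intro j
  induction j with
  | zero =>
    intro r t z hr
    obtain rfl : r = 0 := by simpa using hr
    exact ⟨L.hit ε t z, measurable_hit L ε t z, (hit_int L hc t z).trans (hcap 0),
      hit_le_one L ε t z, fun s _ => by simp [Learner.win]⟩
  | succ j ih =>
    intro r t z hr
    rcases Nat.eq_zero_or_pos r with rfl | hr0
    · exact ⟨L.hit ε t z, measurable_hit L ε t z, (hit_int L hc t z).trans (hcap _),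
        hit_le_one L ε t z, fun s _ => le_add_right (le_of_eq (by simp [Learner.win]))⟩
    set η := ENNReal.ofReal (2 ^ K * Real.exp (-R / 4)) with hη
    obtain ⟨k, r', rfl, hk1, hkK, hkr⟩ :
        ∃ k r', r = r' + k ∧ 1 ≤ k ∧ k ≤ K ∧ (k = K ∨ r' = 0) :=
      ⟨min K r, r - min K r, by omega, by omega, by omega, by omega⟩
    have hr' : r' ≤ j * K := by
      rw [Nat.add_mul, one_mul] at hr
      omega
    choose W hWm hWi hW1 hWw using fun z' => ih r' (t + k) z' hr'
    set G : σ × Option (Fin k) → Euc d → ℝ≥0∞ := fun a s =>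
      match a.2 with
      | none => W a.1 s
      | some i => L.hit ε (t + i + 1) a.1 s with hG
    have hGm : ∀ a, Measurable (G a) := by
      rintro ⟨z₁, _ | i⟩
      · exact hWm z₁
      · exact measurable_hit L ε _ z₁
    have hG1 : ∀ a s, G a s ≤ 1 := by
      rintro ⟨z₁, _ | i⟩ s
      · exact hW1 z₁ s
      · exact hit_le_one L ε _ z₁ s
    have hGi : ∀ a, ∫⁻ s, G a s ∂sphereUnif d ≤ D * D * c ^ ((1 / 2 : ℝ) ^ j) := by
      rintro ⟨z₁, _ | i⟩
      · exact hWi z₁
      · exact (hit_int L hc _ z₁).trans (hcap j)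
    set S : Euc d → ℝ≥0∞ := fun s => ∑ a, trunc R (L.run k t z) a s * G a s with hS
    have hSm : Measurable S := Finset.measurable_sum _ fun a _ =>
      (measurable_trunc (L.run_meas k t z) a).fun_mul (hGm a)
    have hs : ∀ X y, ∑ a, L.run k t z X y a ≤ 1 := fun X y => le_of_eq (L.run_sum k t z X y)
    refine ⟨fun s => min (S s) 1, hSm.min measurable_const, ?_, fun s => min_le_right _ _, ?_⟩
    · refine (lintegral_mono fun s => min_le_left _ _).trans ?_
      refine (phase_bound (θ := θ k) (L.run_meas k t z) hs hn (by omega) (by omega) (hθ k)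
        hGm hG1 hGi).trans ?_
      refine (mul_le_mul (hD k hk1 hkK) le_rfl zero_le zero_le).trans (le_of_eq ?_)
      rw [ENNReal.mul_rpow_of_nonneg _ _ (by norm_num), ← sq, ← ENNReal.rpow_two,
        ← ENNReal.rpow_mul, ← ENNReal.rpow_mul, ENNReal.rpow_two]
      norm_num [pow_succ]
      ring
    · intro s hs1
      have hgo : L.win ε (r' + k) t z s ≤ S s + ((j + 1 : ℕ) : ℝ≥0∞) * η := by
        rw [win_unfold L ε r' s k t z]
        calc ∫⁻ X, ∑ a, L.run k t z X (labels X s) a * L.after ε r' t a s ∂rows (Fin k) d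
            ≤ ∫⁻ X, (∑ a, L.run k t z X (labels X s) a * G a s + (j : ℝ≥0∞) * η)
                ∂rows (Fin k) d := by
              refine lintegral_mono fun X => ?_
              calc ∑ a, L.run k t z X (labels X s) a * L.after ε r' t a s
                  ≤ ∑ a, L.run k t z X (labels X s) a * (G a s + (j : ℝ≥0∞) * η) := by
                    refine Finset.sum_le_sum fun a _ => mul_le_mul_right ?_ _
                    rcases a with ⟨z₁, _ | i⟩
                    · exact hWw z₁ s hs1
                    · exact le_add_right le_rfl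
                _ = _ := by
                    simp only [mul_add]
                    rw [Finset.sum_add_distrib, ← Finset.sum_mul, L.run_sum, one_mul]
          _ = ∫⁻ X, ∑ a, L.run k t z X (labels X s) a * G a s ∂rows (Fin k) d
                + (j : ℝ≥0∞) * η := by
              rw [lintegral_add_right _ measurable_const]; simp
          _ ≤ (S s + η) + (j : ℝ≥0∞) * η := by
              refine add_le_add ((kill_bound (R := R) (L.run_meas k t z) hs (by omega) hs1
                (fun a => G a s) fun a => hG1 a s).trans ?_) le_rfl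
              refine add_le_add le_rfl (ENNReal.ofReal_le_ofReal ?_)
              exact mul_le_mul_of_nonneg_right (pow_le_pow_right₀ one_le_two hkK)
                (Real.exp_pos _).le
          _ = _ := by push_cast; ring
      simp only
      rcases le_total (S s) 1 with h | h
      · rwa [min_eq_left h]
      · rw [min_eq_right h]
        exact le_add_right (win_le_one L ε _ t z s)

end Vale.Agent.P309
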