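import Mathlib

/-!
Product tools for standard Gaussian vectors (used for P309).
-/

open MeasureTheory ProbabilityTheory
open scoped ENNReal RealInnerProductSpace

namespace Vale.Agent.P309

/-- Standard Gaussian on coordinates. -/
noncomputable def gpi (ι : Type*) [Fintype ι] : Measure (ι → ℝ) :=
  Measure.pi fun _ => gaussianReal 0 1

instance gpi_prob (ι : Type*) [Fintype ι] : IsProbabilityMeasure (gpi ι) := by
  unfold gpi; infer_instance

/-- Product rule for lintegrals over finite products, index `Fin n`. -/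
lemma lintegral_prod_pi_fin {α : Type*} [MeasurableSpace α] (μ : Measure α) [SigmaFinite μ] :
    ∀ (n : ℕ) (f : Fin n → α → ℝ≥0∞), (∀ i, Measurable (f i)) →
      ∫⁻ x, ∏ i, f i (x i) ∂(Measure.pi fun _ : Fin n => μ) = ∏ i, ∫⁻ t, f i t ∂μ := by
  intro n
  induction n with
  | zero => intro f _; simp
  | succ n ih =>
      intro f hf
      have hm : Measurable fun x : Fin (n+1) → α => ∏ i, f i (x i) :=
        Finset.measurable_prod _ fun i _ => (hf i).comp (measurable_pi_apply i)
      have hp := measurePreserving_piFinSuccAbove (fun _ : Fin (n+1) => μ) 0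
      rw [← hp.symm.lintegral_comp hm, Fin.prod_univ_succ]
      rw [show (fun _ : Fin n => μ) = fun _ => μ from rfl]
      simp only [Fin.prod_univ_succ, MeasurableEquiv.piFinSuccAbove_symm_apply,
        Fin.insertNthEquiv_zero, Fin.consEquiv_apply, Fin.cons_zero, Fin.cons_succ]
      have hg : Measurable fun x : Fin n → α => ∏ i, f (Fin.succ i) (x i) :=
        Finset.measurable_prod _ fun i _ => (hf _).comp (measurable_pi_apply i)
      have h2 := lintegral_prod_mul (μ := μ) (ν := Measure.pi fun _ : Fin n => μ)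
        (hf 0).aemeasurable hg.aemeasurable
      exact h2.trans (congrArg _ (ih _ fun i => hf _))

/-- Product rule for lintegrals over finite products. -/
lemma lintegral_prod_pi {α : Type*} [MeasurableSpace α] (μ : Measure α) [SigmaFinite μ]
    {ι : Type*} [Fintype ι] (f : ι → α → ℝ≥0∞) (hf : ∀ i, Measurable (f i)) :
    ∫⁻ x, ∏ i, f i (x i) ∂(Measure.pi fun _ : ι => μ) = ∏ i, ∫⁻ t, f i t ∂μ := by
  let e := (Fintype.equivFin ι).symm
  have hp := measurePreserving_piCongrLeft (α := fun _ : ι => α) (fun _ => μ) e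
  have hm : Measurable fun x : ι → α => ∏ i, f i (x i) :=
    Finset.measurable_prod _ fun i _ => (hf i).comp (measurable_pi_apply i)
  rw [← hp.lintegral_comp hm, ← e.prod_comp]
  simp only [MeasurableEquiv.coe_piCongrLeft]
  rw [← lintegral_prod_pi_fin μ _ (fun i => f (e i)) fun i => hf (e i)]
  refine lintegral_congr fun x => ?_
  rw [← e.prod_comp]
  simp [Equiv.piCongrLeft_apply_apply]

lemma gaussianPDF_one (t : ℝ) :
    gaussianPDF 0 1 t = ENNReal.ofReal ((√(2 * Real.pi))⁻¹ * Real.exp (-t ^ 2 / 2)) := by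
  simp [gaussianPDF, gaussianPDFReal]

/-- Joint density of the standard Gaussian vector. -/
noncomputable def gdens (ι : Type*) [Fintype ι] (x : ι → ℝ) : ℝ≥0∞ := ∏ i, gaussianPDF 0 1 (x i)

@[fun_prop]
lemma measurable_gdens (ι : Type*) [Fintype ι] : Measurable (gdens ι) := by
  unfold gdens
  exact Finset.measurable_prod _ fun i _ =>
    (measurable_gaussianPDF 0 1).comp (measurable_pi_apply i)

lemma gdens_eq (ι : Type*) [Fintype ι] (x : ι → ℝ) :
    gdens ι x = ENNReal.ofReal ((√(2 * Real.pi))⁻¹ ^ Fintype.card ι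
      * Real.exp (-(∑ i, x i ^ 2) / 2)) := by
  simp only [gdens, gaussianPDF_one]
  rw [← ENNReal.ofReal_prod_of_nonneg (fun i _ => by positivity), Finset.prod_mul_distrib,
    Finset.prod_const, Finset.card_univ, ← Real.exp_sum]
  congr 2
  rw [← Finset.sum_div, Finset.sum_neg_distrib]

lemma gpi_eq_withDensity (ι : Type*) [Fintype ι] :
    gpi ι = (volume : Measure (ι → ℝ)).withDensity (gdens ι) := by
  unfold gpi
  refine Measure.pi_eq fun s hs => ?_
  rw [withDensity_apply _ (MeasurableSet.univ_pi hs)]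
  classical
  rw [← lintegral_indicator (MeasurableSet.univ_pi hs)]
  have : (Set.univ.pi s).indicator (gdens ι)
      = fun x => ∏ i, (s i).indicator (gaussianPDF 0 1) (x i) := by
    funext x
    by_cases hx : x ∈ Set.univ.pi s
    · rw [Set.indicator_of_mem hx]
      exact Finset.prod_congr rfl fun i _ =>
        (Set.indicator_of_mem (hx i (Set.mem_univ i)) (gaussianPDF 0 1)).symm
    · rw [Set.indicator_of_notMem hx]
      simp only [Set.mem_univ_pi, not_forall] at hx
      obtain ⟨i, hi⟩ := hx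
      exact (Finset.prod_eq_zero (Finset.mem_univ i)
        (Set.indicator_of_notMem hi (gaussianPDF 0 1))).symm
  rw [this, volume_pi,
    lintegral_prod_pi volume _ fun i => (measurable_gaussianPDF 0 1).indicator (hs i)]
  refine Finset.prod_congr rfl fun i _ => ?_
  rw [lintegral_indicator (hs i), gaussianReal_apply 0 one_ne_zero]

lemma lintegral_gpi {ι : Type*} [Fintype ι] {f : (ι → ℝ) → ℝ≥0∞} (hf : Measurable f) :
    ∫⁻ x, f x ∂gpi ι = ∫⁻ x, gdens ι x * f x := by
  rw [gpi_eq_withDensity, lintegral_withDensity_eq_lintegral_mul _ (measurable_gdens ι) hf]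
  rfl

/-- Split a Gaussian vector indexed by a sum type. -/
lemma lintegral_gpi_sum {ι κ : Type*} [Fintype ι] [Fintype κ] {f : (ι ⊕ κ → ℝ) → ℝ≥0∞}
    (hf : Measurable f) :
    ∫⁻ x, f x ∂gpi (ι ⊕ κ) = ∫⁻ u, ∫⁻ v, f (Sum.elim u v) ∂gpi κ ∂gpi ι := by
  have hp := measurePreserving_sumPiEquivProdPi_symm (X := fun _ : ι ⊕ κ => ℝ)
    (fun _ => gaussianReal 0 1)
  rw [gpi, ← hp.lintegral_comp hf]
  refine (lintegral_prod _ (hf.comp hp.measurable).aemeasurable).trans ?_
  refine lintegral_congr fun u => lintegral_congr fun v => ?_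
  congr 1

/-- The standard Gaussian vector in coordinates of an orthonormal basis. -/
lemma lintegral_stdGaussian {E : Type*} [NormedAddCommGroup E] [InnerProductSpace ℝ E]
    [FiniteDimensional ℝ E] [MeasurableSpace E] [BorelSpace E] {ι : Type*} [Fintype ι]
    (b : OrthonormalBasis ι ℝ E) {f : E → ℝ≥0∞} (hf : Measurable f) :
    ∫⁻ g, f g ∂stdGaussian E = ∫⁻ x, f (∑ i, x i • b i) ∂gpi ι := by
  rw [stdGaussian_eq_map_pi_orthonormalBasis b, lintegral_map hf (by fun_prop)]
  rfl

/-- An orthonormal basis adapted to a finite family of vectors. -/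
lemma exists_adapted_basis {d : ℕ} {ι κ : Type*} [Fintype ι] [Fintype κ]
    (h : Fintype.card ι + Fintype.card κ = d) (a : ι → EuclideanSpace ℝ (Fin d)) :
    ∃ b : OrthonormalBasis (ι ⊕ κ) ℝ (EuclideanSpace ℝ (Fin d)),
      ∀ i j, ⟪b (Sum.inr j), a i⟫ = 0 := by
  classical
  let e : ι ⊕ κ ≃ Fin d :=
    (Equiv.sumCongr (Fintype.equivFin ι) (Fintype.equivFin κ)).trans
      (finSumFinEquiv.trans (finCongr h))
  let f : Fin d → EuclideanSpace ℝ (Fin d) := fun j => Sum.elim a (fun _ => 0) (e.symm j)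
  have hd : Module.finrank ℝ (EuclideanSpace ℝ (Fin d)) = Fintype.card (Fin d) := by simp
  refine ⟨(InnerProductSpace.gramSchmidtOrthonormalBasis hd f).reindex e.symm, fun i j => ?_⟩
  rw [OrthonormalBasis.reindex_apply, Equiv.symm_symm]
  have hf : f (e (Sum.inl i)) = a i := by simp [f]
  rw [← hf]
  apply InnerProductSpace.gramSchmidtOrthonormalBasis_inv_triangular hd f
  rw [Fin.lt_def]
  simp only [e, Equiv.trans_apply, Equiv.sumCongr_apply, Sum.map_inl, Sum.map_inr,
    finSumFinEquiv_apply_left, finSumFinEquiv_apply_right, finCongr_apply, Fin.val_cast,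
    Fin.val_castAdd, Fin.val_natAdd]
  omega

end Vale.Agent.P309
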