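import Vale.Agent.P309.Sphere

/-!
A small-value bound for Gram determinants of Gaussian families (P309).
-/

open MeasureTheory ProbabilityTheory Matrix
open scoped ENNReal RealInnerProductSpace

namespace Vale.Agent.P309

/-- i.i.d. standard Gaussian vectors indexed by a finite type. -/
noncomputable def rows (ι : Type*) [Fintype ι] (d : ℕ) : Measure (ι → Euc d) :=
  Measure.pi fun _ => stdGaussian (Euc d)

instance rows_prob (ι : Type*) [Fintype ι] (d : ℕ) : IsProbabilityMeasure (rows ι d) := by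
  unfold rows; infer_instance

@[fun_prop]
lemma measurable_gram_det {d : ℕ} {ι : Type*} [Fintype ι] [DecidableEq ι] :
    Measurable fun a : ι → Euc d => (gram a).det := by
  refine Continuous.measurable ?_
  unfold gram
  apply Continuous.matrix_det
  fun_prop

lemma gram_eq_mul {d : ℕ} {ι κ : Type*} [Fintype ι] [Fintype κ] (a : ι → Euc d)
    (b : OrthonormalBasis (ι ⊕ κ) ℝ (Euc d)) (hb : ∀ i j, ⟪b (Sum.inr j), a i⟫ = 0) :
    gram a = (Matrix.of fun i j => ⟪a i, b (Sum.inl j)⟫) *
      (Matrix.of fun i j => ⟪a i, b (Sum.inl j)⟫)ᵀ := by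
  ext i i'
  rw [Matrix.mul_apply, gram, Matrix.of_apply, ← b.sum_inner_mul_inner, Fintype.sum_sum_type]
  simp [hb, real_inner_comm (b _) (a i'), real_inner_comm (b _) (a i)]

lemma gram_snoc {d k : ℕ} {κ : Type*} [Fintype κ] (a : Fin k → Euc d) (x : Euc d)
    (b : OrthonormalBasis (Fin k ⊕ κ) ℝ (Euc d)) (hb : ∀ i j, ⟪b (Sum.inr j), a i⟫ = 0) :
    (gram (Fin.snoc a x : Fin (k + 1) → Euc d)).det
      = (gram a).det * ∑ j, ⟪b (Sum.inr j), x⟫ ^ 2 := by
  set S := ∑ j, ⟪b (Sum.inr j), x⟫ ^ 2 with hS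
  set M : Matrix (Fin k) (Fin k) ℝ := Matrix.of fun i j => ⟪a i, b (Sum.inl j)⟫ with hM
  set C : Matrix (Fin 1) (Fin k) ℝ := Matrix.of fun _ j => ⟪x, b (Sum.inl j)⟫ with hC
  set D : Matrix (Fin 1) (Fin 1) ℝ := Matrix.of fun _ _ => √S with hD
  set N := Matrix.fromBlocks M 0 C D with hN
  have key : (gram (Fin.snoc a x : Fin (k + 1) → Euc d)).submatrix finSumFinEquiv finSumFinEquiv
      = N * Nᵀ := by
    have hl : ∀ i : Fin k, (Fin.snoc a x : Fin (k + 1) → Euc d) (finSumFinEquiv (Sum.inl i))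
        = a i := fun i => by
      rw [finSumFinEquiv_apply_left]; exact Fin.snoc_castSucc _ _ _
    have hr : ∀ j : Fin 1, (Fin.snoc a x : Fin (k + 1) → Euc d) (finSumFinEquiv (Sum.inr j))
        = x := fun j => by
      rw [finSumFinEquiv_apply_right]
      have : (Fin.natAdd k j : Fin (k + 1)) = Fin.last k := by ext; simp
      rw [this, Fin.snoc_last]
    have hb' : ∀ i j, ⟪a i, b (Sum.inr j)⟫ = 0 := fun i j => by
      rw [real_inner_comm]; exact hb i j
    rw [hN, Matrix.fromBlocks_transpose, Matrix.fromBlocks_multiply]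
    ext (i | i) (i' | i') <;>
      simp only [Matrix.submatrix_apply, gram, Matrix.of_apply, hl, hr, Matrix.fromBlocks_apply₁₁,
        Matrix.fromBlocks_apply₁₂, Matrix.fromBlocks_apply₂₁, Matrix.fromBlocks_apply₂₂] <;>
      rw [← b.sum_inner_mul_inner, Fintype.sum_sum_type]
    · simp [hM, Matrix.mul_apply, hb', real_inner_comm (b _) (a i')]
    · simp [hM, hC, Matrix.mul_apply, hb', real_inner_comm (b _) x]
    · simp [hM, hC, Matrix.mul_apply, hb, real_inner_comm (b _) (a i')]
    · have h0 : (0 : ℝ) ≤ S := by positivity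
      simp only [hC, hD, Matrix.add_apply, Matrix.mul_apply, Matrix.transpose_apply,
        Matrix.of_apply, Finset.univ_unique, Finset.sum_singleton, Real.mul_self_sqrt h0]
      simp [hS, sq, real_inner_comm (b _) x]
  have h := congrArg Matrix.det key
  rw [Matrix.det_submatrix_equiv_self, det_mul, det_transpose, hN,
    Matrix.det_fromBlocks_zero₁₂, Matrix.det_unique D] at h
  rw [h, gram_eq_mul a b hb, det_mul, det_transpose, ← hM]
  have h0 : (0 : ℝ) ≤ S := by positivity
  have h1 : √S * √S = S := Real.mul_self_sqrt h0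
  simp only [hD, Matrix.of_apply]
  linear_combination (M.det * M.det) * h1

lemma gram_det_nonneg {d : ℕ} {ι : Type*} [Fintype ι] [DecidableEq ι]
    (h : Fintype.card ι ≤ d) (a : ι → Euc d) : 0 ≤ (gram a).det := by
  obtain ⟨b, hb⟩ := exists_adapted_basis (κ := Fin (d - Fintype.card ι)) (by simp; omega) a
  rw [gram_eq_mul a b hb, det_mul, det_transpose]
  exact mul_self_nonneg _

lemma rpow_neg_anti {x y : ℝ≥0∞} {g : ℝ} (hg : 0 ≤ g) (h : x ≤ y) : y ^ (-g) ≤ x ^ (-g) := by
  rw [ENNReal.rpow_neg, ENNReal.rpow_neg]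
  exact ENNReal.inv_le_inv.2 (ENNReal.rpow_le_rpow h hg)

lemma lintegral_rpow_Ioc :
    ∫⁻ t in Set.Ioc (0 : ℝ) 1, ENNReal.ofReal t ^ (-(1 / 2 : ℝ)) = 2 := by
  have hi : IntervalIntegrable (fun t : ℝ => t ^ (-(1 / 2 : ℝ))) volume 0 1 :=
    intervalIntegral.intervalIntegrable_rpow' (by norm_num)
  have h2 : ∫ t in Set.Ioc (0 : ℝ) 1, t ^ (-(1 / 2 : ℝ)) = 2 := by
    rw [← intervalIntegral.integral_of_le zero_le_one, integral_rpow (Or.inl (by norm_num))]
    norm_num
  calc ∫⁻ t in Set.Ioc (0 : ℝ) 1, ENNReal.ofReal t ^ (-(1 / 2 : ℝ))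
      = ∫⁻ t in Set.Ioc (0 : ℝ) 1, ENNReal.ofReal (t ^ (-(1 / 2 : ℝ))) :=
        setLIntegral_congr_fun measurableSet_Ioc fun t ht =>
          ENNReal.ofReal_rpow_of_pos ht.1
    _ = ENNReal.ofReal (∫ t in Set.Ioc (0 : ℝ) 1, t ^ (-(1 / 2 : ℝ))) :=
        (ofReal_integral_eq_lintegral_ofReal
          ((intervalIntegrable_iff_integrableOn_Ioc_of_le zero_le_one).1 hi)
          ((ae_restrict_iff' measurableSet_Ioc).2
            (ae_of_all _ fun t ht => Real.rpow_nonneg ht.1.le _))).symm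
    _ = 2 := by rw [h2, ENNReal.ofReal_ofNat]

lemma lintegral_abs_rpow :
    ∫⁻ t, ENNReal.ofReal |t| ^ (-(1 / 2 : ℝ)) ∂gaussianReal 0 1 ≤ 3 := by
  set A : ℝ → ℝ≥0∞ := fun t =>
    (Set.Ioc (0 : ℝ) 1).indicator (fun t => ENNReal.ofReal t ^ (-(1 / 2 : ℝ))) t with hA
  have hAm : Measurable A := (Measurable.indicator (by fun_prop) measurableSet_Ioc)
  have hne : ∀ᵐ t : ℝ, t ≠ 0 := by
    rw [ae_iff]; simp
  have hpt : ∀ᵐ t : ℝ, gaussianPDF 0 1 t * ENNReal.ofReal |t| ^ (-(1 / 2 : ℝ))
      ≤ gaussianPDF 0 1 t + ENNReal.ofReal (1 / 2) * (A t + A (-t)) := by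
    filter_upwards [hne] with t ht
    by_cases h1 : |t| ≤ 1
    · refine le_add_left ?_
      refine mul_le_mul ?_ ?_ zero_le zero_le
      · rw [gaussianPDF_one]
        refine ENNReal.ofReal_le_ofReal ?_
        have h2 : (2 : ℝ) ≤ √(2 * Real.pi) :=
          Real.le_sqrt_of_sq_le (by nlinarith [Real.pi_gt_three])
        calc (√(2 * Real.pi))⁻¹ * Real.exp (-t ^ 2 / 2) ≤ (2 : ℝ)⁻¹ * 1 := by
              refine mul_le_mul (inv_anti₀ (by norm_num) h2) ?_ (Real.exp_pos _).le (by norm_num)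
              rw [Real.exp_le_one_iff]; nlinarith
          _ = 1 / 2 := by norm_num
      · rcases lt_or_gt_of_ne ht with h | h
        · refine le_add_left (le_of_eq ?_)
          rw [abs_of_neg h] at h1 ⊢
          simp [hA, Set.indicator_of_mem (show -t ∈ Set.Ioc (0 : ℝ) 1 from ⟨by linarith, h1⟩)]
        · refine le_add_right (le_of_eq ?_)
          rw [abs_of_pos h] at h1 ⊢
          simp [hA, Set.indicator_of_mem (show t ∈ Set.Ioc (0 : ℝ) 1 from ⟨h, h1⟩)]
    · refine le_add_right ?_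
      refine mul_le_of_le_one_right' ?_
      rw [← ENNReal.one_rpow (-(1 / 2 : ℝ))]
      exact rpow_neg_anti (by norm_num) (by rw [← ENNReal.ofReal_one]; gcongr; linarith)
  rw [gaussianReal_of_var_ne_zero _ one_ne_zero,
    lintegral_withDensity_eq_lintegral_mul _ (measurable_gaussianPDF 0 1) (by fun_prop)]
  calc ∫⁻ t, (gaussianPDF 0 1 * fun t => ENNReal.ofReal |t| ^ (-(1 / 2 : ℝ))) t
      ≤ ∫⁻ t, gaussianPDF 0 1 t + ENNReal.ofReal (1 / 2) * (A t + A (-t)) :=
        lintegral_mono_ae hpt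
    _ = 1 + ENNReal.ofReal (1 / 2) * (2 + 2) := by
        rw [lintegral_add_left (measurable_gaussianPDF 0 1),
          lintegral_gaussianPDF_eq_one 0 one_ne_zero,
          lintegral_const_mul _ (f := fun t => A t + A (-t))
            (hAm.add (hAm.comp measurable_neg)),
          lintegral_add_left hAm]
        have hn : ∫⁻ t, A (-t) = ∫⁻ t, A t :=
          (Measure.measurePreserving_neg (volume : Measure ℝ)).lintegral_comp hAm
        rw [hn, hA, lintegral_indicator measurableSet_Ioc, lintegral_rpow_Ioc]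
    _ = 3 := by
        rw [show (2 : ℝ≥0∞) + 2 = ENNReal.ofReal 4 by norm_num,
          ← ENNReal.ofReal_mul (by norm_num)]
        norm_num

lemma rpow_sum_le {n : ℕ} (hn : n ≠ 0) (z : Fin n → ℝ) :
    ENNReal.ofReal (∑ j, z j ^ 2) ^ (-((n : ℝ) / 4))
      ≤ ENNReal.ofReal n ^ (-((n : ℝ) / 4)) * ∏ j, ENNReal.ofReal |z j| ^ (-(1 / 2 : ℝ)) := by
  have hn' : (0 : ℝ) < n := by exact_mod_cast Nat.pos_of_ne_zero hn
  have key : (n : ℝ) ^ ((n : ℝ) / 4) * ∏ j, |z j| ^ (1 / 2 : ℝ)
      ≤ (∑ j, z j ^ 2) ^ ((n : ℝ) / 4) := by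
    have h := Real.geom_mean_le_arith_mean Finset.univ (fun _ : Fin n => (1 : ℝ))
      (fun j => z j ^ 2) (fun _ _ => zero_le_one) (by simpa using hn') (fun j _ => sq_nonneg _)
    simp only [Real.rpow_one, one_mul, Finset.sum_const, Finset.card_univ, Fintype.card_fin,
      nsmul_eq_mul, mul_one] at h
    rw [le_div_iff₀ hn'] at h
    have h2 := Real.rpow_le_rpow (by positivity) h (by positivity : (0 : ℝ) ≤ (n : ℝ) / 4)
    rw [Real.mul_rpow (by positivity) hn'.le, ← Real.rpow_mul (by positivity),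
      show (n : ℝ)⁻¹ * ((n : ℝ) / 4) = 1 / 4 by field_simp,
      ← Real.finsetProd_rpow _ _ fun j _ => sq_nonneg _] at h2
    rw [mul_comm]
    convert h2 using 2
    refine Finset.prod_congr rfl fun j _ => ?_
    rw [← sq_abs, ← Real.rpow_natCast, ← Real.rpow_mul (abs_nonneg _)]
    norm_num
  have key' : ENNReal.ofReal n ^ ((n : ℝ) / 4) * ∏ j, ENNReal.ofReal |z j| ^ (1 / 2 : ℝ)
      ≤ ENNReal.ofReal (∑ j, z j ^ 2) ^ ((n : ℝ) / 4) := by
    simp_rw [ENNReal.ofReal_rpow_of_nonneg (abs_nonneg _) (by norm_num : (0 : ℝ) ≤ 1 / 2)]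
    rw [ENNReal.ofReal_rpow_of_nonneg hn'.le (by positivity),
      ENNReal.ofReal_rpow_of_nonneg (by positivity) (by positivity),
      ← ENNReal.ofReal_prod_of_nonneg fun j _ => Real.rpow_nonneg (abs_nonneg _) _,
      ← ENNReal.ofReal_mul (by positivity)]
    exact ENNReal.ofReal_le_ofReal key
  simp_rw [ENNReal.rpow_neg]
  refine (ENNReal.inv_le_inv.2 key').trans (le_of_eq ?_)
  rw [ENNReal.mul_inv (Or.inl ?_) (Or.inl ?_), ENNReal.prod_inv_distrib]
  · intro i _ j _ _
    exact Or.inr (ENNReal.rpow_ne_top_of_nonneg (by norm_num) ENNReal.ofReal_ne_top)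
  · simp [hn]
  · simp [hn]

/-- The moment constant. -/
noncomputable def momC (n : ℕ) : ℝ≥0∞ := ENNReal.ofReal n ^ (-((n : ℝ) / 4)) * 3 ^ n

lemma moment_rows {d n : ℕ} (hn : n ≠ 0) : ∀ k : ℕ, k + n ≤ d →
    ∫⁻ a, ENNReal.ofReal (gram a).det ^ (-((n : ℝ) / 4)) ∂rows (Fin k) d ≤ momC n ^ k := by
  intro k
  induction k with
  | zero => intro _; simp
  | succ k ih =>
    intro hkd
    have hm : Measurable fun a : Fin (k + 1) → Euc d =>
        ENNReal.ofReal (gram a).det ^ (-((n : ℝ) / 4)) := by fun_prop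
    have hp := measurePreserving_piFinSuccAbove (α := fun _ : Fin (k + 1) => Euc d)
      (fun _ => stdGaussian (Euc d)) (Fin.last k)
    rw [rows, ← hp.symm.lintegral_comp hm]
    refine (le_of_eq (lintegral_prod_symm _ (hm.comp hp.symm.measurable).aemeasurable)).trans ?_
    simp only [Function.comp_def, MeasurableEquiv.piFinSuccAbove_symm_apply,
      Fin.insertNthEquiv_last]
    calc ∫⁻ a, ∫⁻ x, ENNReal.ofReal (gram (Fin.snoc a x : Fin (k + 1) → Euc d)).det
            ^ (-((n : ℝ) / 4)) ∂stdGaussian (Euc d) ∂(Measure.pi fun _ => stdGaussian (Euc d))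
        ≤ ∫⁻ a, momC n * ENNReal.ofReal (gram a).det ^ (-((n : ℝ) / 4))
            ∂(Measure.pi fun _ : Fin k => stdGaussian (Euc d)) := by
          refine lintegral_mono fun a => ?_
          obtain ⟨b, hb⟩ := exists_adapted_basis (κ := Fin n ⊕ Fin (d - k - n))
            (by simp; omega) a
          have hD : 0 ≤ (gram a).det := gram_det_nonneg (by simp; omega) a
          set Sn : Euc d → ℝ := fun x => ∑ j : Fin n, ⟪b (Sum.inr (Sum.inl j)), x⟫ ^ 2 with hSn
          have hSnm : Measurable fun x => ENNReal.ofReal (Sn x) ^ (-((n : ℝ) / 4)) := by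
            simp only [hSn]; fun_prop
          have hI : ∫⁻ x, ENNReal.ofReal (Sn x) ^ (-((n : ℝ) / 4)) ∂stdGaussian (Euc d)
              ≤ momC n := by
            have hrep : ∀ (z : _ → ℝ) j,
                ⟪b j, ∑ i, z i • b i⟫ = z j := fun z j => b.orthonormal.inner_right_fintype z j
            rw [lintegral_stdGaussian b hSnm]
            simp only [hSn, hrep]
            rw [lintegral_gpi_sum (by fun_prop)]
            simp only [Sum.elim_inr, lintegral_const, measure_univ, mul_one]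
            rw [lintegral_gpi_sum (by fun_prop)]
            simp only [Sum.elim_inl, lintegral_const, measure_univ, mul_one]
            refine (lintegral_mono fun z => rpow_sum_le hn z).trans ?_
            rw [lintegral_const_mul _ (by fun_prop), momC, gpi,
              lintegral_prod_pi (gaussianReal 0 1)
                (fun (_ : Fin n) t => ENNReal.ofReal |t| ^ (-(1 / 2 : ℝ))) fun _ => by fun_prop]
            gcongr
            calc ∏ _j : Fin n, _ ≤ ∏ _j : Fin n, (3 : ℝ≥0∞) :=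
                  Finset.prod_le_prod' fun _ _ => lintegral_abs_rpow
              _ = 3 ^ n := by simp
          calc ∫⁻ x, ENNReal.ofReal (gram (Fin.snoc a x : Fin (k + 1) → Euc d)).det
                  ^ (-((n : ℝ) / 4)) ∂stdGaussian (Euc d)
              ≤ ∫⁻ x, ENNReal.ofReal (gram a).det ^ (-((n : ℝ) / 4))
                  * ENNReal.ofReal (Sn x) ^ (-((n : ℝ) / 4)) ∂stdGaussian (Euc d) := by
                refine lintegral_mono fun x => ?_
                rw [← ENNReal.mul_rpow_of_ne_top ENNReal.ofReal_ne_top ENNReal.ofReal_ne_top,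
                  ← ENNReal.ofReal_mul hD, gram_snoc a x b hb]
                refine rpow_neg_anti (by positivity) (ENNReal.ofReal_le_ofReal ?_)
                refine mul_le_mul_of_nonneg_left ?_ hD
                rw [Fintype.sum_sum_type]
                exact le_add_of_nonneg_right (by positivity)
            _ = ENNReal.ofReal (gram a).det ^ (-((n : ℝ) / 4)) *
                  ∫⁻ x, ENNReal.ofReal (Sn x) ^ (-((n : ℝ) / 4)) ∂stdGaussian (Euc d) :=
                lintegral_const_mul _ hSnm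
            _ ≤ _ := by
                rw [mul_comm (momC n)]
                exact mul_le_mul_right hI _
      _ ≤ momC n * momC n ^ k := by
          rw [lintegral_const_mul _ (by fun_prop)]
          exact mul_le_mul_right (ih (by omega)) _
      _ = momC n ^ (k + 1) := (pow_succ' _ _).symm

/-- Small values of the Gram determinant of a Gaussian family are very unlikely. -/
lemma gram_tail {d n : ℕ} {ι : Type*} [Fintype ι] [DecidableEq ι] (hn : n ≠ 0)
    (hd : Fintype.card ι + n ≤ d) {θ : ℝ} (hθ : 0 < θ) :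
    rows ι d {a | (gram a).det < θ ^ Fintype.card ι}
      ≤ ENNReal.ofReal ((θ / n) ^ ((n : ℝ) / 4) * 3 ^ n) ^ Fintype.card ι := by
  set g : ℝ := (n : ℝ) / 4 with hg
  set k := Fintype.card ι with hk
  have hg0 : 0 ≤ g := by positivity
  let e := (Fintype.equivFin ι).symm
  have hfm : Measurable fun a : ι → Euc d => ENNReal.ofReal (gram a).det ^ (-g) := by fun_prop
  have hmom : ∫⁻ a, ENNReal.ofReal (gram a).det ^ (-g) ∂rows ι d ≤ momC n ^ k := by
    have hp := measurePreserving_piCongrLeft (α := fun _ : ι => Euc d)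
      (fun _ => stdGaussian (Euc d)) e
    rw [rows, ← hp.lintegral_comp hfm]
    refine le_trans (le_of_eq (lintegral_congr fun x => ?_)) (moment_rows (d := d) hn k hd)
    congr 2
    rw [← Matrix.det_submatrix_equiv_self e]
    congr 1
    ext i j
    simp [gram, MeasurableEquiv.coe_piCongrLeft, Equiv.piCongrLeft_apply_apply]
  have ht : ENNReal.ofReal (θ ^ k) ^ (-g) ≠ 0 ∧ ENNReal.ofReal (θ ^ k) ^ (-g) ≠ ⊤ := by
    rw [ENNReal.ofReal_rpow_of_pos (pow_pos hθ k)]
    exact ⟨by simpa using Real.rpow_pos_of_pos (pow_pos hθ k) _, ENNReal.ofReal_ne_top⟩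
  have hsub : {a : ι → Euc d | (gram a).det < θ ^ k}
      ⊆ {a | ENNReal.ofReal (θ ^ k) ^ (-g) ≤ ENNReal.ofReal (gram a).det ^ (-g)} :=
    fun a ha => rpow_neg_anti hg0 (ENNReal.ofReal_le_ofReal ha.le)
  have h1 : ENNReal.ofReal (θ ^ k) ^ (-g) * rows ι d {a | (gram a).det < θ ^ k}
      ≤ momC n ^ k :=
    le_trans (mul_le_mul_right (measure_mono hsub) _)
      ((mul_meas_ge_le_lintegral hfm _).trans hmom)
  calc rows ι d {a | (gram a).det < θ ^ k}
      = (ENNReal.ofReal (θ ^ k) ^ (-g))⁻¹ *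
          (ENNReal.ofReal (θ ^ k) ^ (-g) * rows ι d {a | (gram a).det < θ ^ k}) := by
        rw [← mul_assoc, ENNReal.inv_mul_cancel ht.1 ht.2, one_mul]
    _ ≤ (ENNReal.ofReal (θ ^ k) ^ (-g))⁻¹ * momC n ^ k := mul_le_mul_right h1 _
    _ = _ := by
        have hn0 : (0 : ℝ) < n := by exact_mod_cast Nat.pos_of_ne_zero hn
        rw [← ENNReal.rpow_neg, neg_neg, momC, ENNReal.ofReal_rpow_of_pos (pow_pos hθ k),
          ENNReal.ofReal_rpow_of_pos hn0,
          show (3 : ℝ≥0∞) = ENNReal.ofReal 3 by simp, ← ENNReal.ofReal_pow (by norm_num),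
          ← ENNReal.ofReal_mul (by positivity), ← ENNReal.ofReal_pow (by positivity),
          ← ENNReal.ofReal_pow (by positivity), ← ENNReal.ofReal_mul (by positivity)]
        congr 1
        rw [← hg, Real.div_rpow hθ.le hn0.le, Real.rpow_neg hn0.le, ← Real.rpow_natCast θ k,
          ← Real.rpow_mul hθ.le, mul_comm ((k : ℝ)) g, Real.rpow_mul hθ.le, Real.rpow_natCast]
        ring

end Vale.Agent.P309
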