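import Vale.Agent.P309.Sphere

/-!
The learner model of P309: a bounded-state randomized streaming learner for noiseless Gaussian
linear regression.
-/

open MeasureTheory ProbabilityTheory
open scoped ENNReal RealInnerProductSpace

namespace Vale.Agent.P309

/-- A learner in dimension `d` with state set `σ`. The Boolean says whether the learner stops.
`init z b` is the probability to start in state `z` with stop flag `b`; `step t z (x, y) z' b` is
the probability to move from state `z`, having read `t` pairs so far and now reading the pair
`(x, y)`, to state `z'` with stop flag `b`; `out t z` is the law of the output when the learner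
ends in state `z` after `t` pairs. -/
structure Learner (d : ℕ) (σ : Type) [Fintype σ] where
  init : σ → Bool → ℝ≥0∞
  init_sum : ∑ z, ∑ b, init z b = 1
  step : ℕ → σ → Euc d × ℝ → σ → Bool → ℝ≥0∞
  step_sum : ∀ t z p, ∑ z', ∑ b, step t z p z' b = 1
  step_meas : ∀ t z z' b, Measurable fun p => step t z p z' b
  out : ℕ → σ → Measure (Euc d)
  out_prob : ∀ t z, IsProbabilityMeasure (out t z)
  out_sphere : ∀ t z, out t z (Metric.sphere 0 1) = 1

attribute [instance] Learner.out_prob

variable {d : ℕ} {σ : Type} [Fintype σ]

/-- Probability that the output made in state `z` after `t` pairs has angle at most `ε`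
with the signal `s`. -/
noncomputable def Learner.hit (L : Learner d σ) (ε : ℝ) (t : ℕ) (z : σ) (s : Euc d) : ℝ≥0∞ :=
  L.out t z {v | Real.arccos ⟪v, s⟫ ≤ ε}

/-- Probability of final accuracy `ε` on signal `s`, when the learner is in state `z`, has read
`t` pairs, has not stopped, and may read at most `r` further pairs `(x, ⟨x, s⟩)`, the rows `x`
being independent standard Gaussian vectors. -/
noncomputable def Learner.win (L : Learner d σ) (ε : ℝ) : ℕ → ℕ → σ → Euc d → ℝ≥0∞
  | 0, t, z, s => L.hit ε t z s
  | r + 1, t, z, s => ∫⁻ x, ∑ z', (L.step t z (x, ⟪x, s⟫) z' true * L.hit ε (t + 1) z' s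
      + L.step t z (x, ⟪x, s⟫) z' false * L.win ε r (t + 1) z' s) ∂stdGaussian (Euc d)

/-- The success probability with horizon `T` at accuracy `ε`, for a signal drawn uniformly from
the unit sphere. -/
noncomputable def Learner.success (L : Learner d σ) (ε : ℝ) (T : ℕ) : ℝ≥0∞ :=
  ∫⁻ s, ∑ z, (L.init z true * L.hit ε 0 z s + L.init z false * L.win ε T 0 z s) ∂sphereUnif d

end Vale.Agent.P309
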