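import Vale.Agent.P309.GramTail
import Vale.Agent.P309.Model

/-!
One phase of samples: the second-moment bound (P309).
-/

open MeasureTheory ProbabilityTheory
open scoped ENNReal RealInnerProductSpace

namespace Vale.Agent.P309

variable {d : ℕ}

lemma lintegral_rows_sum {ι κ : Type*} [Fintype ι] [Fintype κ]
    {f : (ι ⊕ κ → Euc d) → ℝ≥0∞} (hf : Measurable f) :
    ∫⁻ q, f q ∂rows (ι ⊕ κ) d = ∫⁻ p, f (Sum.elim p.1 p.2) ∂(rows ι d).prod (rows κ d) := by
  have hp := measurePreserving_sumPiEquivProdPi_symm (X := fun _ : ι ⊕ κ => Euc d)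
    (fun _ => stdGaussian (Euc d))
  rw [rows, ← hp.lintegral_comp hf]
  rfl

/-- The labels of rows `X` on signal `s`. -/
noncomputable def labels {ι : Type*} (X : ι → Euc d) (s : Euc d) : ι → ℝ := fun i => ⟪X i, s⟫

@[fun_prop]
lemma measurable_labels {ι : Type*} :
    Measurable fun p : Euc d × (ι → Euc d) => labels p.2 p.1 := by
  unfold labels; fun_prop

lemma labels_apply {ι : Type*} (X : ι → Euc d) (s : Euc d) (i : ι) :
    labels X s i = ⟪X i, s⟫ := rfl

/-- Label vectors of squared norm at most `R`. -/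
def ySet {ι : Type*} [Fintype ι] (R : ℝ) : Set (ι → ℝ) := {y | ∑ i, y i ^ 2 ≤ R}

lemma measurableSet_ySet {ι : Type*} [Fintype ι] (R : ℝ) : MeasurableSet (ySet (ι := ι) R) :=
  measurableSet_le (by fun_prop) measurable_const

lemma mem_ySet {ι : Type*} [Fintype ι] {R : ℝ} {y : ι → ℝ} :
    y ∈ ySet R ↔ ∑ i, y i ^ 2 ≤ R := Iff.rfl

attribute [irreducible] ySet labels

/-- The likelihood of `a` on signal `s`, with large labels removed. -/
noncomputable def trunc {K : ℕ} {A : Type*} (R : ℝ)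
    (h : (Fin K → Euc d) → (Fin K → ℝ) → A → ℝ≥0∞) (a : A) (s : Euc d) : ℝ≥0∞ :=
  ∫⁻ X, (ySet R).indicator (fun y => h X y a) (labels X s) ∂rows (Fin K) d

/-- The probability of `a` when the labels are independent noise. -/
noncomputable def noise {K : ℕ} {A : Type*} (h : (Fin K → Euc d) → (Fin K → ℝ) → A → ℝ≥0∞)
    (a : A) : ℝ≥0∞ :=
  ∫⁻ X, ∫⁻ y, h X y a ∂gpi (Fin K) ∂rows (Fin K) d

/-- The constant of the second-moment bound. -/
noncomputable def phaseC (d K : ℕ) (θ R : ℝ) : ℝ :=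
  4 * 2 ^ (d - 2 * K - 2) * (K.factorial * 8 ^ K) / √(θ ^ (2 * K))
    * ((2 * Real.pi) ^ K * Real.exp R)

/-- The exceptional probability of the second-moment bound. -/
noncomputable def phaseXi (n K : ℕ) (θ : ℝ) : ℝ≥0∞ :=
  ENNReal.ofReal ((θ / n) ^ ((n : ℝ) / 4) * 3 ^ n) ^ (2 * K)

section
variable {K : ℕ} {A : Type*} {R : ℝ} {h : (Fin K → Euc d) → (Fin K → ℝ) → A → ℝ≥0∞}

lemma measurable_trunc_integrand (hm : ∀ a, Measurable fun p : (Fin K → Euc d) × (Fin K → ℝ) =>
    h p.1 p.2 a) (a : A) :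
    Measurable fun p : Euc d × (Fin K → Euc d) =>
      (ySet R).indicator (fun y => h p.2 y a) (labels p.2 p.1) := by
  have h1 : Measurable fun p : Euc d × (Fin K → Euc d) => h p.2 (labels p.2 p.1) a :=
    (hm a).comp (measurable_snd.prodMk measurable_labels)
  have h2 : MeasurableSet {p : Euc d × (Fin K → Euc d) | labels p.2 p.1 ∈ ySet R} :=
    measurable_labels (measurableSet_ySet R)
  classical
  simp only [Set.indicator_apply]
  exact Measurable.ite h2 h1 measurable_const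

lemma measurable_trunc (hm : ∀ a, Measurable fun p : (Fin K → Euc d) × (Fin K → ℝ) =>
    h p.1 p.2 a) (a : A) : Measurable (trunc R h a) :=
  (measurable_trunc_integrand hm a).lintegral_prod_right'

lemma pair_outside (hm : ∀ a, Measurable fun p : (Fin K → Euc d) × (Fin K → ℝ) => h p.1 p.2 a)
    (hd2 : 2 * K + 2 ≤ d) {θ : ℝ} (hθ : 0 < θ) (a : A) (q : Fin K ⊕ Fin K → Euc d)
    (hdet : θ ^ (2 * K) ≤ (gram q).det) :
    ∫⁻ s, (ySet R).indicator (fun y => h (q ∘ Sum.inl) y a) (labels (q ∘ Sum.inl) s) *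
        (ySet R).indicator (fun y => h (q ∘ Sum.inr) y a) (labels (q ∘ Sum.inr) s) ∂sphereUnif d
      ≤ ENNReal.ofReal (phaseC d K θ R) *
          ((∫⁻ y, h (q ∘ Sum.inl) y a ∂gpi (Fin K)) *
            ∫⁻ y, h (q ∘ Sum.inr) y a ∂gpi (Fin K)) := by
  classical
  have hu : Measurable fun y : Fin K → ℝ => h (q ∘ Sum.inl) y a :=
    (hm a).comp (measurable_const.prodMk measurable_id)
  have hv : Measurable fun y : Fin K → ℝ => h (q ∘ Sum.inr) y a :=
    (hm a).comp (measurable_const.prodMk measurable_id)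
  set ψ : (Fin K ⊕ Fin K → ℝ) → ℝ≥0∞ := fun y =>
    (ySet R).indicator (fun y => h (q ∘ Sum.inl) y a) (y ∘ Sum.inl) *
      (ySet R).indicator (fun y => h (q ∘ Sum.inr) y a) (y ∘ Sum.inr) with hψ
  have hl : Measurable fun y : Fin K ⊕ Fin K → ℝ => y ∘ Sum.inl :=
    measurable_pi_lambda _ fun i => measurable_pi_apply _
  have hr : Measurable fun y : Fin K ⊕ Fin K → ℝ => y ∘ Sum.inr :=
    measurable_pi_lambda _ fun i => measurable_pi_apply _
  have hψm : Measurable ψ :=
    ((hu.indicator (measurableSet_ySet R)).comp hl).fun_mul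
      ((hv.indicator (measurableSet_ySet R)).comp hr)
  have hprod : Measurable fun y : Fin K ⊕ Fin K → ℝ =>
      h (q ∘ Sum.inl) (y ∘ Sum.inl) a * h (q ∘ Sum.inr) (y ∘ Sum.inr) a :=
    (hu.comp hl).fun_mul (hv.comp hr)
  have hcard : Fintype.card (Fin K ⊕ Fin K) = 2 * K := by simp [two_mul]
  have hpos : 0 < (gram q).det := lt_of_lt_of_le (pow_pos hθ _) hdet
  have hbox : ∀ y, ψ y ≤ ENNReal.ofReal ((2 * Real.pi) ^ K * Real.exp R) *
      (gdens (Fin K ⊕ Fin K) y *
        (h (q ∘ Sum.inl) (y ∘ Sum.inl) a * h (q ∘ Sum.inr) (y ∘ Sum.inr) a)) := by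
    intro y
    simp only [hψ]
    by_cases hy : y ∘ Sum.inl ∈ ySet R ∧ y ∘ Sum.inr ∈ ySet R
    · rw [Set.indicator_of_mem hy.1, Set.indicator_of_mem hy.2, ← mul_assoc]
      refine le_mul_of_one_le_left' ?_
      have hsum : ∑ i, y i ^ 2 ≤ 2 * R := by
        have h1 := hy.1
        have h2 := hy.2
        simp only [mem_ySet, Function.comp] at h1 h2
        rw [Fintype.sum_sum_type]; linarith
      rw [gdens_eq, hcard, ← ENNReal.ofReal_mul (by positivity), ← ENNReal.ofReal_one]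
      refine ENNReal.ofReal_le_ofReal ?_
      rw [inv_pow, pow_mul, Real.sq_sqrt (by positivity), mul_mul_mul_comm,
        mul_inv_cancel₀ (by positivity), one_mul, ← Real.exp_add, Real.one_le_exp_iff]
      linarith
    · rcases not_and_or.1 hy with h | h <;> simp [Set.indicator_of_notMem h]
  have hsplit : ∫⁻ y, gdens (Fin K ⊕ Fin K) y *
      (h (q ∘ Sum.inl) (y ∘ Sum.inl) a * h (q ∘ Sum.inr) (y ∘ Sum.inr) a)
      = (∫⁻ y, h (q ∘ Sum.inl) y a ∂gpi (Fin K)) *
          ∫⁻ y, h (q ∘ Sum.inr) y a ∂gpi (Fin K) := by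
    rw [← lintegral_gpi hprod, lintegral_gpi_sum hprod]
    simp only [Sum.elim_comp_inl, Sum.elim_comp_inr]
    rw [← lintegral_mul_const _ hu]
    exact lintegral_congr fun u => lintegral_const_mul _ hv
  have e : ∀ s, (ySet R).indicator (fun y => h (q ∘ Sum.inl) y a) (labels (q ∘ Sum.inl) s) *
      (ySet R).indicator (fun y => h (q ∘ Sum.inr) y a) (labels (q ∘ Sum.inr) s)
      = ψ fun i => ⟪q i, s⟫ := by
    intro s
    have e1 : labels (q ∘ Sum.inl) s = (fun i => ⟪q i, s⟫) ∘ Sum.inl :=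
      funext fun i => by simp [labels_apply]
    have e2 : labels (q ∘ Sum.inr) s = (fun i => ⟪q i, s⟫) ∘ Sum.inr :=
      funext fun i => by simp [labels_apply]
    simp only [hψ, e1, e2]
  rw [lintegral_congr e]
  refine (sphere_marginal (K := K) (m := d - 2 * K - 2) hcard (by omega) q hpos hψm).trans ?_
  calc ENNReal.ofReal (4 * 2 ^ (d - 2 * K - 2) * (K.factorial * 8 ^ K) / √(gram q).det) * ∫⁻ y, ψ y
      ≤ ENNReal.ofReal (4 * 2 ^ (d - 2 * K - 2) * (K.factorial * 8 ^ K) / √(θ ^ (2 * K))) *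
          (ENNReal.ofReal ((2 * Real.pi) ^ K * Real.exp R) *
            ((∫⁻ y, h (q ∘ Sum.inl) y a ∂gpi (Fin K)) *
              ∫⁻ y, h (q ∘ Sum.inr) y a ∂gpi (Fin K))) := by
        refine mul_le_mul ?_ ?_ zero_le zero_le
        · exact ENNReal.ofReal_le_ofReal (div_le_div_of_nonneg_left (by positivity)
            (Real.sqrt_pos.2 (pow_pos hθ _)) (Real.sqrt_le_sqrt hdet))
        · rw [← hsplit, ← lintegral_const_mul _ ((measurable_gdens _).fun_mul hprod)]
          exact lintegral_mono hbox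
    _ = ENNReal.ofReal (phaseC d K θ R) * ((∫⁻ y, h (q ∘ Sum.inl) y a ∂gpi (Fin K)) *
            ∫⁻ y, h (q ∘ Sum.inr) y a ∂gpi (Fin K)) := by
        rw [← mul_assoc, ← ENNReal.ofReal_mul (by positivity)]
        rfl

lemma trunc_sq_le (hm : ∀ a, Measurable fun p : (Fin K → Euc d) × (Fin K → ℝ) => h p.1 p.2 a)
    (h1 : ∀ X y a, h X y a ≤ 1) {n : ℕ} (hn : n ≠ 0) (hdn : 2 * K + n ≤ d) (hd2 : 2 * K + 2 ≤ d)
    {θ : ℝ} (hθ : 0 < θ) (a : A) :
    ∫⁻ s, trunc R h a s * trunc R h a s ∂sphereUnif d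
      ≤ ENNReal.ofReal (phaseC d K θ R) * noise h a ^ 2 + phaseXi n K θ := by
  classical
  set P : Euc d → (Fin K → Euc d) → ℝ≥0∞ :=
    fun s X => (ySet R).indicator (fun y => h X y a) (labels X s) with hPdef
  have hPm : Measurable fun p : Euc d × (Fin K → Euc d) => P p.1 p.2 :=
    measurable_trunc_integrand hm a
  set Ψ : Euc d → (Fin K ⊕ Fin K → Euc d) → ℝ≥0∞ :=
    fun s q => P s (q ∘ Sum.inl) * P s (q ∘ Sum.inr) with hΨ
  have hl : Measurable fun p : Euc d × (Fin K ⊕ Fin K → Euc d) => (p.1, p.2 ∘ Sum.inl) :=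
    measurable_fst.prodMk (measurable_pi_lambda _ fun i =>
      (measurable_pi_apply _).comp measurable_snd)
  have hr : Measurable fun p : Euc d × (Fin K ⊕ Fin K → Euc d) => (p.1, p.2 ∘ Sum.inr) :=
    measurable_fst.prodMk (measurable_pi_lambda _ fun i =>
      (measurable_pi_apply _).comp measurable_snd)
  have hΨm : Measurable fun p : Euc d × (Fin K ⊕ Fin K → Euc d) => Ψ p.1 p.2 :=
    (hPm.comp hl).fun_mul (hPm.comp hr)
  have hsq : ∀ s, trunc R h a s * trunc R h a s
      = ∫⁻ q, Ψ s q ∂rows (Fin K ⊕ Fin K) d := by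
    intro s
    have hs : Measurable (P s) := hPm.comp (measurable_const.prodMk measurable_id)
    have hΨs : Measurable fun q : Fin K ⊕ Fin K → Euc d => Ψ s q :=
      hΨm.comp (measurable_const.prodMk measurable_id)
    rw [lintegral_rows_sum hΨs]
    exact (lintegral_prod_mul hs.aemeasurable hs.aemeasurable).symm
  set F : (Fin K → Euc d) → ℝ≥0∞ := fun X => ∫⁻ y, h X y a ∂gpi (Fin K) with hF
  have hFm : Measurable F := (hm a).lintegral_prod_right'
  set bad : Set (Fin K ⊕ Fin K → Euc d) :=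
    {q | (gram q).det < θ ^ Fintype.card (Fin K ⊕ Fin K)} with hbad
  have hbadm : MeasurableSet bad := measurableSet_lt measurable_gram_det measurable_const
  have hcard : Fintype.card (Fin K ⊕ Fin K) = 2 * K := by simp [two_mul]
  have hkey : ∀ q, ∫⁻ s, Ψ s q ∂sphereUnif d
      ≤ bad.indicator 1 q +
        ENNReal.ofReal (phaseC d K θ R) * (F (q ∘ Sum.inl) * F (q ∘ Sum.inr)) := by
    intro q
    by_cases hq : q ∈ bad
    · refine le_add_right ?_
      rw [Set.indicator_of_mem hq, Pi.one_apply]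
      refine (lintegral_mono fun s => ?_).trans
        (le_of_eq (by simp : ∫⁻ _, (1 : ℝ≥0∞) ∂sphereUnif d = 1))
      exact mul_le_one' ((Set.indicator_le_self _ _ _).trans (h1 _ _ _))
        ((Set.indicator_le_self _ _ _).trans (h1 _ _ _))
    · refine le_add_left (pair_outside hm hd2 hθ a q ?_)
      have : θ ^ Fintype.card (Fin K ⊕ Fin K) ≤ (gram q).det := not_lt.1 fun h => hq h
      rwa [hcard] at this
  have hFF : Measurable fun q : Fin K ⊕ Fin K → Euc d => F (q ∘ Sum.inl) * F (q ∘ Sum.inr) :=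
    (hFm.comp (by fun_prop : Measurable fun q : Fin K ⊕ Fin K → Euc d => q ∘ Sum.inl)).fun_mul
      (hFm.comp (by fun_prop : Measurable fun q : Fin K ⊕ Fin K → Euc d => q ∘ Sum.inr))
  calc ∫⁻ s, trunc R h a s * trunc R h a s ∂sphereUnif d
      = ∫⁻ q, ∫⁻ s, Ψ s q ∂sphereUnif d ∂rows (Fin K ⊕ Fin K) d := by
        rw [lintegral_congr hsq, lintegral_lintegral_swap hΨm.aemeasurable]
    _ ≤ ∫⁻ q, (bad.indicator 1 q +
          ENNReal.ofReal (phaseC d K θ R) * (F (q ∘ Sum.inl) * F (q ∘ Sum.inr)))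
          ∂rows (Fin K ⊕ Fin K) d := lintegral_mono hkey
    _ = rows (Fin K ⊕ Fin K) d bad + ENNReal.ofReal (phaseC d K θ R) * noise h a ^ 2 := by
        rw [lintegral_add_left (measurable_one.indicator hbadm), lintegral_indicator_one hbadm,
          lintegral_const_mul _ hFF, lintegral_rows_sum hFF]
        simp only [Sum.elim_comp_inl, Sum.elim_comp_inr]
        rw [lintegral_prod_mul hFm.aemeasurable hFm.aemeasurable, sq]
        rfl
    _ ≤ _ := by
        rw [add_comm]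
        refine add_le_add le_rfl ?_
        rw [hbad, phaseXi, ← hcard]
        exact gram_tail hn (by rw [hcard]; exact hdn) hθ

variable [Fintype A]

lemma sum_noise_le (hm : ∀ a, Measurable fun p : (Fin K → Euc d) × (Fin K → ℝ) => h p.1 p.2 a)
    (hs : ∀ X y, ∑ a, h X y a ≤ 1) : ∑ a, noise h a ≤ 1 := by
  unfold noise
  rw [← lintegral_finsetSum _ fun a _ => (hm a).lintegral_prod_right']
  calc ∫⁻ X, ∑ a, ∫⁻ y, h X y a ∂gpi (Fin K) ∂rows (Fin K) d
      ≤ ∫⁻ _, 1 ∂rows (Fin K) d := by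
        refine lintegral_mono fun X => ?_
        have hma : ∀ a, Measurable fun y : Fin K → ℝ => h X y a := fun a =>
          (hm a).comp (measurable_const.prodMk measurable_id)
        rw [← lintegral_finsetSum _ fun a _ => hma a]
        calc ∫⁻ y, ∑ a, h X y a ∂gpi (Fin K) ≤ ∫⁻ _, 1 ∂gpi (Fin K) :=
              lintegral_mono fun y => hs X y
          _ = 1 := by simp
    _ = 1 := by simp

/-- One phase: the value before is at most a constant times the root of the value after. -/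
lemma phase_bound (hm : ∀ a, Measurable fun p : (Fin K → Euc d) × (Fin K → ℝ) => h p.1 p.2 a)
    (hs : ∀ X y, ∑ a, h X y a ≤ 1) {n : ℕ} (hn : n ≠ 0) (hdn : 2 * K + n ≤ d)
    (hd2 : 2 * K + 2 ≤ d) {θ : ℝ} (hθ : 0 < θ) {G : A → Euc d → ℝ≥0∞}
    (hG : ∀ a, Measurable (G a)) (hG1 : ∀ a s, G a s ≤ 1) {β : ℝ≥0∞}
    (hβ : ∀ a, ∫⁻ s, G a s ∂sphereUnif d ≤ β) :
    ∫⁻ s, ∑ a, trunc R h a s * G a s ∂sphereUnif d
      ≤ (ENNReal.ofReal (phaseC d K θ R) ^ (1 / 2 : ℝ)
          + Fintype.card A * phaseXi n K θ ^ (1 / 2 : ℝ)) * β ^ (1 / 2 : ℝ) := by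
  classical
  have h1 : ∀ X y a, h X y a ≤ 1 := fun X y a =>
    (Finset.single_le_sum (f := h X y) (fun _ _ => zero_le) (Finset.mem_univ a)).trans (hs X y)
  have hone : ∀ a, ∫⁻ s, trunc R h a s * G a s ∂sphereUnif d
      ≤ (ENNReal.ofReal (phaseC d K θ R) ^ (1 / 2 : ℝ) * noise h a
          + phaseXi n K θ ^ (1 / 2 : ℝ)) * β ^ (1 / 2 : ℝ) := by
    intro a
    refine (ENNReal.lintegral_mul_le_Lp_mul_Lq (sphereUnif d) Real.HolderConjugate.two_two
      (measurable_trunc hm a).aemeasurable (hG a).aemeasurable).trans ?_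
    refine mul_le_mul ?_ ?_ zero_le zero_le
    · calc (∫⁻ s, trunc R h a s ^ (2 : ℝ) ∂sphereUnif d) ^ (1 / 2 : ℝ)
          ≤ (ENNReal.ofReal (phaseC d K θ R) * noise h a ^ 2 + phaseXi n K θ) ^ (1 / 2 : ℝ) := by
            refine ENNReal.rpow_le_rpow ?_ (by norm_num)
            simpa [ENNReal.rpow_two, sq] using trunc_sq_le hm h1 hn hdn hd2 hθ a
        _ ≤ (ENNReal.ofReal (phaseC d K θ R) * noise h a ^ 2) ^ (1 / 2 : ℝ)
              + phaseXi n K θ ^ (1 / 2 : ℝ) :=
            ENNReal.rpow_add_le_add_rpow _ _ (by norm_num) (by norm_num)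
        _ = _ := by
            rw [ENNReal.mul_rpow_of_nonneg _ _ (by norm_num), ← ENNReal.rpow_two,
              ← ENNReal.rpow_mul]
            norm_num
    · refine ENNReal.rpow_le_rpow ((lintegral_mono fun s => ?_).trans (hβ a)) (by norm_num)
      rw [ENNReal.rpow_two, sq]
      exact mul_le_of_le_one_right' (hG1 a s)
  rw [lintegral_finsetSum _ fun a _ => ((measurable_trunc hm a).fun_mul (hG a))]
  refine (Finset.sum_le_sum fun a _ => hone a).trans ?_
  rw [← Finset.sum_mul, Finset.sum_add_distrib, ← Finset.mul_sum, Finset.sum_const,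
    Finset.card_univ, nsmul_eq_mul]
  gcongr
  calc _ ≤ ENNReal.ofReal (phaseC d K θ R) ^ (1 / 2 : ℝ) * 1 :=
        mul_le_mul_right (sum_noise_le hm hs) _
    _ = _ := mul_one _

end

lemma lintegral_exp_sq_gauss :
    ∫⁻ t, ENNReal.ofReal (Real.exp (t ^ 2 / 4)) ∂gaussianReal 0 1 ≤ 2 := by
  rw [gaussianReal_of_var_ne_zero _ one_ne_zero,
    lintegral_withDensity_eq_lintegral_mul _ (measurable_gaussianPDF 0 1) (by fun_prop)]
  refine le_of_eq_of_le (lintegral_congr fun t => ?_) lintegral_gauss_quarter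
  rw [Pi.mul_apply, gaussianPDF_one, ← ENNReal.ofReal_mul (by positivity), mul_assoc,
    ← Real.exp_add]
  ring_nf

lemma lintegral_exp_inner_sq (hd : 1 ≤ d) {s : Euc d} (hs : ‖s‖ = 1) :
    ∫⁻ x, ENNReal.ofReal (Real.exp (⟪x, s⟫ ^ 2 / 4)) ∂stdGaussian (Euc d) ≤ 2 := by
  obtain ⟨b, hb⟩ := exists_adapted_basis (ι := Fin 1) (κ := Fin (d - 1))
    (by simp; omega) (fun _ => s)
  have hb' : ∀ j, ⟪b (Sum.inr j), s⟫ = 0 := fun j => hb 0 j
  have hb0 : ⟪b (Sum.inl 0), s⟫ ^ 2 = 1 := by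
    have := b.sum_sq_inner_right s
    simpa [Fintype.sum_sum_type, hb', hs] using this
  have he' : ∀ z : Fin 1 ⊕ Fin (d - 1) → ℝ,
      ⟪∑ i, z i • b i, s⟫ ^ 2 = z (Sum.inl 0) ^ 2 := by
    intro z
    rw [sum_inner, Fintype.sum_sum_type]
    simp [real_inner_smul_left, hb', mul_pow, hb0]
  rw [lintegral_stdGaussian b (by fun_prop)]
  simp only [he']
  rw [lintegral_gpi_sum (by fun_prop)]
  simp only [Sum.elim_inl, lintegral_const, measure_univ, mul_one]
  have h1 := lintegral_prod_pi (ι := Fin 1) (gaussianReal 0 1)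
    (fun _ t => ENNReal.ofReal (Real.exp (t ^ 2 / 4))) (fun _ => by fun_prop)
  simp only [Fin.prod_univ_one] at h1
  exact le_of_eq_of_le h1 lintegral_exp_sq_gauss

/-- The labels of `K` rows rarely have squared norm above `R`. -/
lemma labels_tail (K : ℕ) (hd : 1 ≤ d) {s : Euc d} (hs : ‖s‖ = 1) (R : ℝ) :
    rows (Fin K) d {X | labels X s ∉ ySet R} ≤ ENNReal.ofReal (2 ^ K * Real.exp (-R / 4)) := by
  set e : Euc d → ℝ≥0∞ := fun x => ENNReal.ofReal (Real.exp (⟪x, s⟫ ^ 2 / 4)) with he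
  have hem : Measurable e := by simp only [he]; fun_prop
  have hI : ∫⁻ x, e x ∂stdGaussian (Euc d) ≤ 2 := lintegral_exp_inner_sq hd hs
  have hP : ∫⁻ X, ∏ i, e (X i) ∂rows (Fin K) d ≤ 2 ^ K := by
    rw [rows, lintegral_prod_pi _ (fun _ => e) fun _ => hem]
    calc ∏ _i : Fin K, _ ≤ ∏ _i : Fin K, (2 : ℝ≥0∞) := Finset.prod_le_prod' fun _ _ => hI
      _ = 2 ^ K := by simp
  have hms : MeasurableSet {X : Fin K → Euc d | labels X s ∈ ySet R} :=
    (measurable_labels.comp (measurable_const.prodMk measurable_id)) (measurableSet_ySet R)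
  calc rows (Fin K) d {X | labels X s ∉ ySet R}
      = ∫⁻ X, {X : Fin K → Euc d | labels X s ∉ ySet R}.indicator 1 X ∂rows (Fin K) d :=
        (lintegral_indicator_one hms.compl).symm
    _ ≤ ∫⁻ X, ENNReal.ofReal (Real.exp (-R / 4)) * ∏ i, e (X i) ∂rows (Fin K) d := by
        refine lintegral_mono fun X => ?_
        by_cases hX : labels X s ∈ ySet R
        · simp [Set.indicator_of_notMem
            (show X ∉ {X : Fin K → Euc d | labels X s ∉ ySet R} from fun h => h hX)]
        · rw [Set.indicator_of_mem (show X ∈ {X : Fin K → Euc d | labels X s ∉ ySet R} from hX),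
            Pi.one_apply, he]
          simp only
          rw [← ENNReal.ofReal_prod_of_nonneg (fun _ _ => (Real.exp_pos _).le), ← Real.exp_sum,
            ← ENNReal.ofReal_mul (Real.exp_pos _).le, ← Real.exp_add, ← ENNReal.ofReal_one]
          refine ENNReal.ofReal_le_ofReal ?_
          rw [Real.one_le_exp_iff, ← Finset.sum_div]
          simp only [mem_ySet, labels_apply, not_le] at hX
          linarith
    _ ≤ ENNReal.ofReal (Real.exp (-R / 4)) * 2 ^ K := by
        rw [lintegral_const_mul _ (by fun_prop)]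
        exact mul_le_mul_right hP _
    _ = _ := by
        rw [show (2 : ℝ≥0∞) = ENNReal.ofReal 2 by simp, ← ENNReal.ofReal_pow (by norm_num),
          ← ENNReal.ofReal_mul (by positivity), mul_comm]

lemma kill_bound {K : ℕ} {A : Type*} [Fintype A] {R : ℝ}
    {h : (Fin K → Euc d) → (Fin K → ℝ) → A → ℝ≥0∞}
    (hm : ∀ a, Measurable fun p : (Fin K → Euc d) × (Fin K → ℝ) => h p.1 p.2 a)
    (hs : ∀ X y, ∑ a, h X y a ≤ 1) (hd : 1 ≤ d) {s : Euc d} (hs1 : ‖s‖ = 1)
    (G : A → ℝ≥0∞) (hG : ∀ a, G a ≤ 1) :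
    ∫⁻ X, ∑ a, h X (labels X s) a * G a ∂rows (Fin K) d
      ≤ ∑ a, trunc R h a s * G a + ENNReal.ofReal (2 ^ K * Real.exp (-R / 4)) := by
  classical
  have hi : ∀ a, Measurable fun X : Fin K → Euc d =>
      (ySet R).indicator (fun y => h X y a) (labels X s) := fun a =>
    (measurable_trunc_integrand hm a).comp (measurable_const.prodMk measurable_id)
  have hsum : ∑ a, trunc R h a s * G a
      = ∫⁻ X, ∑ a, (ySet R).indicator (fun y => h X y a) (labels X s) * G a
          ∂rows (Fin K) d := by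
    rw [lintegral_finsetSum _ fun a _ => (hi a).mul_const _]
    exact Finset.sum_congr rfl fun a _ => (lintegral_mul_const _ (hi a)).symm
  have hms : MeasurableSet {X : Fin K → Euc d | labels X s ∈ ySet R} :=
    (measurable_labels.comp (measurable_const.prodMk measurable_id)) (measurableSet_ySet R)
  refine le_trans ?_ (add_le_add (le_of_eq hsum.symm) (labels_tail K hd hs1 R))
  rw [show {X : Fin K → Euc d | labels X s ∉ ySet R}
    = {X : Fin K → Euc d | labels X s ∈ ySet R}ᶜ from rfl]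
  rw [← lintegral_indicator_one hms.compl, ← lintegral_add_left
    (Finset.measurable_sum _ fun a _ => (hi a).mul_const _)]
  refine lintegral_mono fun X => ?_
  by_cases hX : labels X s ∈ ySet R
  · simp [Set.indicator_of_mem hX]
  · rw [Set.indicator_of_mem (show X ∈ {X : Fin K → Euc d | labels X s ∈ ySet R}ᶜ from hX)]
    refine le_add_left ?_
    calc ∑ a, h X (labels X s) a * G a ≤ ∑ a, h X (labels X s) a :=
          Finset.sum_le_sum fun a _ => mul_le_of_le_one_right' (hG a)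
      _ ≤ 1 := hs _ _

end Vale.Agent.P309
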