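import Vale.Agent.P309.Moment
import Vale.Agent.P309.Phase

/-!
One phase of samples preserves ball growth bounds up to a factor (P309).
-/

open MeasureTheory ProbabilityTheory Filter
open scoped ENNReal RealInnerProductSpace Topology

namespace Vale.Agent.P309

variable {d k : ℕ}

/-- The smoothed density of the labels of rows `X` under `ν`. -/
noncomputable def slice (ν : Measure (Euc d)) (δ : ℝ) (X : Fin k → Euc d) (y : Fin k → ℝ) :
    ℝ≥0∞ :=
  (ENNReal.ofReal (2 * δ) ^ k)⁻¹ * ν (labels X ⁻¹' Metric.closedBall y δ)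

lemma measurableSet_close (δ : ℝ) :
    MeasurableSet {p : ((Fin k → Euc d) × (Fin k → ℝ)) × Euc d |
      labels p.1.1 p.2 ∈ Metric.closedBall p.1.2 δ} := by
  simp only [Metric.mem_closedBall]
  refine measurableSet_le (Measurable.dist ?_ (by fun_prop)) measurable_const
  exact measurable_labels.comp (measurable_snd.prodMk (measurable_fst.comp measurable_fst))

lemma measurable_slice (ν : Measure (Euc d)) [SFinite ν] (δ : ℝ) :
    Measurable fun p : (Fin k → Euc d) × (Fin k → ℝ) => slice ν δ p.1 p.2 :=
  (measurable_measure_prodMk_left (ν := ν) (measurableSet_close δ)).const_mul _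

lemma volume_box (y : Fin k → ℝ) {δ : ℝ} (hδ : 0 ≤ δ) :
    volume (Metric.closedBall y δ) = ENNReal.ofReal (2 * δ) ^ k := by
  rw [Real.volume_pi_closedBall y hδ, Fintype.card_fin, ENNReal.ofReal_pow (by positivity)]

lemma slice_moment (hd : 1 ≤ d) (ν : Measure (Euc d)) [IsFiniteMeasure ν] {F : ℝ} (hF : 0 ≤ F)
    {α : ℕ} (hν : ∀ c t, 0 < t → ν (Metric.closedBall c t) ≤ ENNReal.ofReal (F * t ^ α))
    {r : ℝ} (hr : 0 < r) (c₀ : Euc d) (hs : ∀ᵐ s ∂ν, s ∈ Metric.closedBall c₀ r) {j : ℕ}
    (hα : j + k + 1 ≤ α) {δ : ℝ} (hδ : 0 < δ) :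
    ∫⁻ X, (∫⁻ y, slice ν δ X y ^ (j + 1)) ∂rows (Fin k) d
      ≤ ν Set.univ * ENNReal.ofReal (2 ^ (j + 1) * 4 ^ α * F * r ^ α / r ^ k) ^ j := by
  set η := 2 * δ with hη
  have hη0 : 0 < η := by positivity
  set e := ENNReal.ofReal η ^ k with he
  have he0 : e ≠ 0 := pow_ne_zero _ (by simpa using hη0)
  have het : e ≠ ⊤ := ENNReal.pow_ne_top ENNReal.ofReal_ne_top
  set K0 := ENNReal.ofReal (2 ^ (j + 1) * 4 ^ α * F * r ^ α / r ^ k)
  set U : (Fin k → Euc d) → Euc d → Set (Euc d) :=
    fun X s => {s' | ∀ i, |⟪X i, s' - s⟫| ≤ η} with hU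
  have hUm : MeasurableSet {p : (Euc d × (Fin k → Euc d)) × Euc d |
      ∀ i, |⟪p.1.2 i, p.2 - p.1.1⟫| ≤ η} := by
    simp only [Set.ofPred_forall]
    exact MeasurableSet.iInter fun i => measurableSet_le (by fun_prop) measurable_const
  have hνU : Measurable fun p : Euc d × (Fin k → Euc d) => ν (U p.2 p.1) :=
    measurable_measure_prodMk_left (ν := ν) hUm
  have hX : ∀ X, ∫⁻ y, slice ν δ X y ^ (j + 1) ≤ e⁻¹ ^ j * ∫⁻ s, ν (U X s) ^ j ∂ν := by
    intro X
    set T : (Fin k → ℝ) → Set (Euc d) := fun y => labels X ⁻¹' Metric.closedBall y δ with hT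
    have hlab : Measurable (labels X : Euc d → Fin k → ℝ) :=
      measurable_labels.comp (measurable_id.prodMk measurable_const)
    have hpt : ∀ y, slice ν δ X y ^ (j + 1)
        ≤ e⁻¹ ^ (j + 1) * ∫⁻ s, (T y).indicator (fun s => ν (U X s) ^ j) s ∂ν := by
      intro y
      rw [slice, mul_pow, ← hη, ← he]
      refine mul_le_mul_right ?_ _
      calc ν (T y) ^ (j + 1) = ∫⁻ s, (T y).indicator (fun _ => ν (T y) ^ j) s ∂ν := by
            rw [lintegral_indicator_const (hlab measurableSet_closedBall), pow_succ]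
        _ ≤ _ := by
            refine lintegral_mono fun s => ?_
            by_cases hsT : s ∈ T y
            · rw [Set.indicator_of_mem hsT, Set.indicator_of_mem hsT]
              refine pow_le_pow_left' (measure_mono fun s' hs' i => ?_) j
              have h1 := (dist_pi_le_iff hδ.le).1 hsT i
              have h2 := (dist_pi_le_iff hδ.le).1 hs' i
              simp only [labels_apply, Real.dist_eq, abs_le] at h1 h2
              rw [inner_sub_right, abs_le]
              constructor <;> linarith [h1.1, h1.2, h2.1, h2.2]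
            · rw [Set.indicator_of_notMem hsT]
              exact zero_le
    have hg : Measurable fun s => ν (U X s) ^ j :=
      (hνU.comp (measurable_id.prodMk measurable_const)).pow_const j
    have hjm : Measurable fun p : (Fin k → ℝ) × Euc d =>
        (T p.1).indicator (fun s => ν (U X s) ^ j) p.2 := by
      have hA : MeasurableSet {p : (Fin k → ℝ) × Euc d | p.2 ∈ T p.1} := by
        simp only [hT, Set.mem_preimage, Metric.mem_closedBall]
        exact measurableSet_le ((hlab.comp measurable_snd).dist measurable_fst) measurable_const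
      classical
      simp only [Set.indicator_apply]
      exact Measurable.ite hA (hg.comp measurable_snd) measurable_const
    refine (lintegral_mono hpt).trans ?_
    rw [lintegral_const_mul' _ _ (ENNReal.pow_ne_top (ENNReal.inv_ne_top.2 he0)),
      lintegral_lintegral_swap hjm.aemeasurable, pow_succ, mul_assoc]
    refine mul_le_mul_right ?_ _
    rw [← lintegral_const_mul' _ _ (ENNReal.inv_ne_top.2 he0)]
    refine lintegral_mono fun s => ?_
    have hsw : ∀ y, (T y).indicator (fun s => ν (U X s) ^ j) s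
        = (Metric.closedBall (labels X s) δ).indicator (fun _ => ν (U X s) ^ j) y := by
      intro y
      by_cases hy : s ∈ T y
      · rw [Set.indicator_of_mem hy, Set.indicator_of_mem (Metric.mem_closedBall_comm.1 hy)]
      · rw [Set.indicator_of_notMem hy,
          Set.indicator_of_notMem fun h => hy (Metric.mem_closedBall_comm.1 h)]
    rw [lintegral_congr hsw, lintegral_indicator_const measurableSet_closedBall, volume_box _ hδ.le, ← hη, ← he,
      mul_left_comm, ENNReal.inv_mul_cancel he0 het, mul_one]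
  refine (lintegral_mono hX).trans ?_
  rw [lintegral_const_mul' _ _ (ENNReal.pow_ne_top (ENNReal.inv_ne_top.2 he0)),
    lintegral_lintegral_swap (((hνU.comp measurable_swap)).pow_const j).aemeasurable]
  calc e⁻¹ ^ j * ∫⁻ s, ∫⁻ X, ν (U X s) ^ j ∂rows (Fin k) d ∂ν
      ≤ e⁻¹ ^ j * ∫⁻ _, (e * K0) ^ j ∂ν := by
        refine mul_le_mul_right (lintegral_mono_ae ?_) _
        filter_upwards [hs] with s₁ hs₁
        have hs2 : ∀ᵐ s ∂ν, ‖s - s₁‖ ≤ 2 * r := by
          filter_upwards [hs] with s hs'
          rw [Metric.mem_closedBall] at hs₁ hs'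
          rw [← dist_eq_norm]
          linarith [dist_triangle_right s s₁ c₀]
        have h := slab_moment hd ν hF hν hr s₁ hs2 (k := k) hα hη0 j 0 (by omega) Fin.elim0
        have hu : slabs η (Fin.elim0 : Fin 0 → Euc d) = Set.univ := by
          ext x; simp [slabs]
        rw [hu, measure_univ, one_pow, one_mul] at h
        refine le_trans (le_of_eq (lintegral_congr fun X => ?_)) h
        simp [hU]
    _ = _ := by
        rw [lintegral_const, ← mul_assoc, ← mul_pow, ← mul_assoc, ENNReal.inv_mul_cancel he0 het,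
          one_mul, mul_comm]

lemma le_add_pow {lam : ℝ≥0∞} (h0 : lam ≠ 0) (ht : lam ≠ ⊤) (A : ℝ≥0∞) (j : ℕ) :
    A ≤ lam + lam⁻¹ ^ j * A ^ (j + 1) := by
  rcases le_total A lam with h | h
  · exact le_add_right h
  · refine le_add_left ?_
    rw [pow_succ, ← mul_assoc, ← mul_pow]
    refine le_mul_of_one_le_left' (one_le_pow_of_one_le' ?_ j)
    rw [← ENNReal.inv_mul_cancel h0 ht]
    exact mul_le_mul_right h _

/-- The averaged smoothed densities along `δ = 2^-n`. -/
noncomputable def sliceLim (ν : Measure (Euc d)) (j : ℕ) (X : Fin k → Euc d) : ℝ≥0∞ :=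
  liminf (fun n : ℕ => ∫⁻ y, slice ν ((1 / 2) ^ n) X y ^ (j + 1)) atTop

lemma measurable_sliceLim (ν : Measure (Euc d)) [SFinite ν] (j : ℕ) :
    Measurable (sliceLim (k := k) ν j) :=
  Measurable.liminf fun _ => ((measurable_slice ν _).pow_const _).lintegral_prod_right'

lemma slice_dual_lsc (ν : Measure (Euc d)) [IsFiniteMeasure ν] (j : ℕ) (X : Fin k → Euc d)
    {g : (Fin k → ℝ) → ℝ≥0∞} (hg : LowerSemicontinuous g) (hg1 : ∀ y, g y ≤ 1)
    {lam : ℝ≥0∞} (h0 : lam ≠ 0) (ht : lam ≠ ⊤) :
    ∫⁻ s, g (labels X s) ∂ν ≤ lam * (∫⁻ y, g y) + lam⁻¹ ^ j * sliceLim ν j X := by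
  have hlab : Measurable (labels X : Euc d → Fin k → ℝ) :=
    measurable_labels.comp (measurable_id.prodMk measurable_const)
  set δ : ℕ → ℝ := fun n => (1 / 2) ^ n with hδ
  have hδ0 : ∀ n, 0 < δ n := fun n => by positivity
  set avg : ℕ → Euc d → ℝ≥0∞ := fun n s =>
    (ENNReal.ofReal (2 * δ n) ^ k)⁻¹ * ∫⁻ y in Metric.closedBall (labels X s) (δ n), g y with havg
  have hjoint : ∀ n, Measurable fun p : Euc d × (Fin k → ℝ) =>
      (Metric.closedBall (labels X p.1) (δ n)).indicator g p.2 := by
    intro n
    have hA : MeasurableSet {p : Euc d × (Fin k → ℝ) |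
        p.2 ∈ Metric.closedBall (labels X p.1) (δ n)} := by
      simp only [Metric.mem_closedBall]
      exact measurableSet_le (measurable_snd.dist (hlab.comp measurable_fst)) measurable_const
    classical
    simp only [Set.indicator_apply]
    exact Measurable.ite hA (hg.measurable.comp measurable_snd) measurable_const
  have havgm : ∀ n, Measurable (avg n) := by
    intro n
    simp only [havg, ← lintegral_indicator measurableSet_closedBall]
    exact (Measurable.lintegral_prod_right' (f := fun p : Euc d × (Fin k → ℝ) =>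
        (Metric.closedBall (labels X p.1) (δ n)).indicator g p.2) (hjoint n)).const_mul _
  have hle : ∀ n, ∫⁻ s, avg n s ∂ν
      ≤ lam * (∫⁻ y, g y) + lam⁻¹ ^ j * ∫⁻ y, slice ν (δ n) X y ^ (j + 1) := by
    intro n
    have hsl : Measurable fun y : Fin k → ℝ => slice ν (δ n) X y :=
      Measurable.comp (g := fun p : (Fin k → Euc d) × (Fin k → ℝ) => slice ν (δ n) p.1 p.2)
        (f := fun y : Fin k → ℝ => (X, y)) (measurable_slice ν (δ n))
        (measurable_const.prodMk measurable_id)
    have hmI : Measurable fun s : Euc d =>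
        ∫⁻ y, (Metric.closedBall (labels X s) (δ n)).indicator g y :=
      Measurable.lintegral_prod_right' (f := fun p : Euc d × (Fin k → ℝ) =>
        (Metric.closedBall (labels X p.1) (δ n)).indicator g p.2) (hjoint n)
    have hne : (ENNReal.ofReal (2 * δ n) ^ k)⁻¹ ≠ ⊤ :=
      ENNReal.inv_ne_top.2 (pow_ne_zero _ (ENNReal.ofReal_pos.2 (by linarith [hδ0 n])).ne')
    have hswp : ∫⁻ s, (∫⁻ y, (Metric.closedBall (labels X s) (δ n)).indicator g y) ∂ν
        = ∫⁻ y, ∫⁻ s, (Metric.closedBall (labels X s) (δ n)).indicator g y ∂ν :=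
      lintegral_lintegral_swap (f := fun (s : Euc d) (y : Fin k → ℝ) =>
        (Metric.closedBall (labels X s) (δ n)).indicator g y) (hjoint n).aemeasurable
    calc ∫⁻ s, avg n s ∂ν = ∫⁻ y, g y * slice ν (δ n) X y := by
          simp only [havg, ← lintegral_indicator measurableSet_closedBall]
          rw [lintegral_const_mul _ hmI, hswp, ← lintegral_const_mul' _ _ hne]
          refine lintegral_congr fun y => ?_
          have hsw : ∀ s, (Metric.closedBall (labels X s) (δ n)).indicator g y
              = (labels X ⁻¹' Metric.closedBall y (δ n)).indicator (fun _ => g y) s := by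
            intro s
            by_cases hy : y ∈ Metric.closedBall (labels X s) (δ n)
            · rw [Set.indicator_of_mem hy,
                Set.indicator_of_mem (Set.mem_preimage.2 (Metric.mem_closedBall_comm.1 hy))]
            · rw [Set.indicator_of_notMem hy,
                Set.indicator_of_notMem (show s ∉ labels X ⁻¹' Metric.closedBall y (δ n) from
                  fun h => hy (Metric.mem_closedBall_comm.1 h))]
          rw [lintegral_congr hsw, lintegral_indicator_const (hlab measurableSet_closedBall),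
            slice]
          ring
      _ ≤ ∫⁻ y, lam * g y + lam⁻¹ ^ j * slice ν (δ n) X y ^ (j + 1) := by
          refine lintegral_mono fun y => ?_
          calc g y * slice ν (δ n) X y
              ≤ g y * (lam + lam⁻¹ ^ j * slice ν (δ n) X y ^ (j + 1)) :=
                mul_le_mul_right (le_add_pow h0 ht _ j) _
            _ ≤ _ := by
                rw [mul_add, mul_comm (g y) lam]
                exact add_le_add le_rfl (mul_le_of_le_one_left' (hg1 y))
      _ = _ := by
          rw [lintegral_add_left (hg.measurable.const_mul _), lintegral_const_mul _ hg.measurable,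
            lintegral_const_mul _ (hsl.pow_const _)]
  have hδlim : Tendsto δ atTop (𝓝 0) :=
    tendsto_pow_atTop_nhds_zero_of_lt_one (by norm_num) (by norm_num)
  have hpt : ∀ s, g (labels X s) ≤ liminf (fun n => avg n s) atTop := by
    intro s
    refine le_of_forall_lt fun t htlt => ?_
    obtain ⟨t', htt', ht'⟩ := exists_between htlt
    refine lt_of_lt_of_le htt' (le_liminf_of_le (by isBoundedDefault) ?_)
    obtain ⟨ρ, hρ, hball⟩ := Metric.eventually_nhds_iff.1 (hg (labels X s) t' ht')
    filter_upwards [hδlim.eventually (gt_mem_nhds hρ)] with n hn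
    have h1 : t' * ENNReal.ofReal (2 * δ n) ^ k
        ≤ ∫⁻ y in Metric.closedBall (labels X s) (δ n), g y := by
      rw [← volume_box (labels X s) (hδ0 n).le, ← setLIntegral_const]
      exact setLIntegral_mono hg.measurable fun y hy =>
        (hball (lt_of_le_of_lt (Metric.mem_closedBall.1 hy) hn)).le
    simp only [havg]
    calc t' = (ENNReal.ofReal (2 * δ n) ^ k)⁻¹ * (t' * ENNReal.ofReal (2 * δ n) ^ k) := by
          rw [mul_left_comm, ENNReal.inv_mul_cancel (pow_ne_zero _ (by simpa using hδ0 n))
            (ENNReal.pow_ne_top ENNReal.ofReal_ne_top), mul_one]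
      _ ≤ _ := mul_le_mul_right h1 _
  calc ∫⁻ s, g (labels X s) ∂ν ≤ ∫⁻ s, liminf (fun n => avg n s) atTop ∂ν := lintegral_mono hpt
    _ ≤ liminf (fun n => ∫⁻ s, avg n s ∂ν) atTop := lintegral_liminf_le havgm
    _ ≤ liminf (fun n => lam * (∫⁻ y, g y) +
          lam⁻¹ ^ j * ∫⁻ y, slice ν (δ n) X y ^ (j + 1)) atTop :=
        liminf_le_liminf (Eventually.of_forall hle)
    _ = _ := by
        refine (Monotone.map_liminf_of_continuousAt
          (f := fun x => lam * (∫⁻ y, g y) + lam⁻¹ ^ j * x) ?_
          (fun n : ℕ => ∫⁻ y, slice ν ((1 / 2) ^ n) X y ^ (j + 1)) ?_).symm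
        · intro a b hab
          exact add_le_add le_rfl (mul_le_mul_right hab _)
        · exact (continuous_const.add (ENNReal.continuous_const_mul
            (ENNReal.pow_ne_top (ENNReal.inv_ne_top.2 h0)))).continuousAt

lemma slice_dual (ν : Measure (Euc d)) [IsFiniteMeasure ν] (j : ℕ) (X : Fin k → Euc d)
    {f : (Fin k → ℝ) → ℝ≥0∞} (hf : Measurable f) (hf1 : ∀ y, f y ≤ 1)
    {lam : ℝ≥0∞} (h0 : lam ≠ 0) (ht : lam ≠ ⊤) :
    ∫⁻ s, f (labels X s) ∂ν ≤ lam * (∫⁻ y, f y) + lam⁻¹ ^ j * sliceLim ν j X := by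
  refine ENNReal.le_of_forall_pos_le_add fun ε hε _ => ?_
  obtain ⟨g, hg1, hg2, hg3⟩ := exists_le_lowerSemicontinuous_lintegral_ge
    (μ := (volume : Measure (Fin k → ℝ))) f hf (ε := (ε : ℝ≥0∞) / lam)
    (ENNReal.div_ne_zero.2 ⟨by simpa using hε.ne', ht⟩)
  set g' : (Fin k → ℝ) → ℝ≥0∞ := fun y => min (g y) 1
  have hg' : LowerSemicontinuous g' :=
    Continuous.comp_lowerSemicontinuous (g := fun x : ℝ≥0∞ => min x 1) (by fun_prop) hg2
      (fun a b h => min_le_min_right 1 h)
  calc ∫⁻ s, f (labels X s) ∂ν ≤ ∫⁻ s, g' (labels X s) ∂ν :=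
        lintegral_mono fun s => le_min (hg1 _) (hf1 _)
    _ ≤ lam * (∫⁻ y, g' y) + lam⁻¹ ^ j * sliceLim ν j X :=
        slice_dual_lsc ν j X hg' (fun y => min_le_right _ _) h0 ht
    _ ≤ lam * ((∫⁻ y, f y) + ε / lam) + lam⁻¹ ^ j * sliceLim ν j X := by
        gcongr
        exact (lintegral_mono fun y => min_le_left (g y) 1).trans hg3
    _ = _ := by
        rw [mul_add, ENNReal.mul_div_cancel h0 ht]
        ring

lemma lintegral_sq_gauss : ∫⁻ t, ENNReal.ofReal (t ^ 2) ∂gaussianReal 0 1 = 1 := by
  have hi : Integrable (fun t : ℝ => t ^ 2) (gaussianReal 0 1) :=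
    (memLp_id_gaussianReal (μ := 0) (v := 1) 2).integrable_sq
  rw [← ofReal_integral_eq_lintegral_ofReal hi (ae_of_all _ fun t => sq_nonneg t)]
  have h := variance_of_integral_eq_zero (μ := gaussianReal 0 1) (X := fun t : ℝ => t)
    aemeasurable_id integral_id_gaussianReal
  rw [variance_fun_id_gaussianReal] at h
  rw [← h]; simp

lemma gram_sqrt_mean : ∀ k : ℕ, k ≤ d →
    ∫⁻ a, ENNReal.ofReal (√(gram a).det) ∂rows (Fin k) d ≤ ENNReal.ofReal (√d) ^ k := by
  intro k
  induction k with
  | zero => intro _; simp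
  | succ k ih =>
    intro hkd
    have hd0 : (0 : ℝ) < d := by exact_mod_cast (by omega : 0 < d)
    have hm : Measurable fun a : Fin (k + 1) → Euc d => ENNReal.ofReal (√(gram a).det) := by
      fun_prop
    have hp := measurePreserving_piFinSuccAbove (α := fun _ : Fin (k + 1) => Euc d)
      (fun _ => stdGaussian (Euc d)) (Fin.last k)
    rw [rows, ← hp.symm.lintegral_comp hm]
    refine (le_of_eq (lintegral_prod_symm _ (hm.comp hp.symm.measurable).aemeasurable)).trans ?_
    simp only [Function.comp_def, MeasurableEquiv.piFinSuccAbove_symm_apply,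
      Fin.insertNthEquiv_last]
    calc _ ≤ ∫⁻ a, ENNReal.ofReal (√(gram a).det) * ENNReal.ofReal (√d)
            ∂(Measure.pi fun _ : Fin k => stdGaussian (Euc d)) := by
          refine lintegral_mono fun a => ?_
          obtain ⟨b, hb⟩ := exists_adapted_basis (κ := Fin (d - k)) (by simp; omega) a
          have hD : 0 ≤ (gram a).det := gram_det_nonneg (by simp; omega) a
          have hs : 0 < √(d : ℝ) := Real.sqrt_pos.2 hd0
          have hmS : Measurable fun x : Euc d =>
              ∑ j, ENNReal.ofReal (⟪b (Sum.inr j), x⟫ ^ 2) := by fun_prop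
          calc ∫⁻ x, ENNReal.ofReal (√(gram (Fin.snoc a x : Fin (k + 1) → Euc d)).det)
                ∂stdGaussian (Euc d)
              ≤ ∫⁻ x, ENNReal.ofReal (√(gram a).det) * (ENNReal.ofReal (√d / 2) +
                  ENNReal.ofReal ((2 * √d)⁻¹) * ∑ j, ENNReal.ofReal (⟪b (Sum.inr j), x⟫ ^ 2))
                  ∂stdGaussian (Euc d) := by
                refine lintegral_mono fun x => ?_
                rw [gram_snoc a x b hb, Real.sqrt_mul hD,
                  ← ENNReal.ofReal_sum_of_nonneg (fun j _ => sq_nonneg _),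
                  ← ENNReal.ofReal_mul (by positivity),
                  ← ENNReal.ofReal_add (by positivity) (by positivity),
                  ← ENNReal.ofReal_mul (Real.sqrt_nonneg _)]
                refine ENNReal.ofReal_le_ofReal (mul_le_mul_of_nonneg_left ?_ (Real.sqrt_nonneg _))
                set S := ∑ j, ⟪b (Sum.inr j), x⟫ ^ 2
                have hS : 0 ≤ S := by positivity
                have h1 := Real.mul_self_sqrt hS
                rw [inv_mul_eq_div, div_add_div _ _ two_ne_zero (by positivity), le_div_iff₀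
                  (by positivity)]
                nlinarith [sq_nonneg (√S - √(d : ℝ))]
            _ = ENNReal.ofReal (√(gram a).det) * (ENNReal.ofReal (√d / 2) +
                  ENNReal.ofReal ((2 * √d)⁻¹) * (d - k : ℕ)) := by
                rw [lintegral_const_mul _ (by fun_prop), lintegral_add_left measurable_const,
                  lintegral_const, measure_univ, mul_one, lintegral_const_mul _ hmS,
                  lintegral_finsetSum _ fun j _ => by fun_prop]
                congr 3
                have : ∀ j, ∫⁻ x, ENNReal.ofReal (⟪b (Sum.inr j), x⟫ ^ 2) ∂stdGaussian (Euc d)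
                    = 1 := by
                  intro j
                  rw [lintegral_stdGaussian b (by fun_prop)]
                  simp only [b.orthonormal.inner_right_fintype]
                  have hev := measurePreserving_eval
                    (fun _ : Fin k ⊕ Fin (d - k) => gaussianReal 0 1) (Sum.inr j)
                  exact (hev.lintegral_comp (f := fun t => ENNReal.ofReal (t ^ 2))
                    (by fun_prop)).trans lintegral_sq_gauss
                simp [this]
            _ ≤ _ := by
                refine mul_le_mul_right ?_ _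
                rw [← ENNReal.ofReal_natCast, ← ENNReal.ofReal_mul (by positivity),
                  ← ENNReal.ofReal_add (by positivity) (by positivity)]
                refine ENNReal.ofReal_le_ofReal ?_
                have h1 : ((d - k : ℕ) : ℝ) ≤ d := by exact_mod_cast (Nat.sub_le d k)
                have h2 : (2 * √(d : ℝ))⁻¹ * (d - k : ℕ) ≤ √d / 2 := by
                  rw [inv_mul_le_iff₀ (by positivity)]
                  nlinarith [Real.mul_self_sqrt hd0.le]
                linarith
      _ ≤ _ := by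
          rw [lintegral_mul_const _ (by fun_prop), pow_succ]
          exact mul_le_mul_left (ih (by omega)) _

lemma volume_image_ball (hkd : k ≤ d) (hd : 1 ≤ d) (X : Fin k → Euc d) (c : Euc d) {r : ℝ}
    (hr : 0 < r) :
    volume (labels X '' Metric.closedBall c r)
      ≤ ENNReal.ofReal (√(gram X).det) *
        ENNReal.ofReal (Real.exp (d / 2) * (r * √(2 * Real.pi / d)) ^ k) := by
  classical
  obtain ⟨b, hb⟩ := exists_adapted_basis (κ := Fin (d - k)) (by simp; omega) X
  set M : Matrix (Fin k) (Fin k) ℝ := Matrix.of fun i j => ⟪X i, b (Sum.inl j)⟫ with hM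
  set Z : Set (Fin k → ℝ) := {z | ∑ i, z i ^ 2 ≤ r ^ 2} with hZ
  have hZm : MeasurableSet Z := measurableSet_le (by fun_prop) measurable_const
  have hsub : labels X '' Metric.closedBall c r
      ⊆ (fun y => -labels X c + y) ⁻¹' (Matrix.toLin' M '' Z) := by
    rintro _ ⟨s, hs, rfl⟩
    refine ⟨fun j => ⟪b (Sum.inl j), s - c⟫, ?_, ?_⟩
    · show ∑ j, ⟪b (Sum.inl j), s - c⟫ ^ 2 ≤ r ^ 2
      have h := b.sum_sq_inner_right (s - c)
      rw [Fintype.sum_sum_type] at h
      rw [Metric.mem_closedBall, dist_eq_norm] at hs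
      have h2 : ‖s - c‖ ^ 2 ≤ r ^ 2 := pow_le_pow_left₀ (norm_nonneg _) hs 2
      have h3 : (0 : ℝ) ≤ ∑ j, ⟪b (Sum.inr j), s - c⟫ ^ 2 := by positivity
      linarith
    · funext i
      have hb' : ∀ j, ⟪X i, b (Sum.inr j)⟫ = 0 := fun j => by
        rw [real_inner_comm]; exact hb i j
      have h := b.sum_inner_mul_inner (X i) (s - c)
      rw [Fintype.sum_sum_type] at h
      simp only [hb', zero_mul, Finset.sum_const_zero, add_zero] at h
      simp only [Matrix.toLin'_apply, Matrix.mulVec, dotProduct, hM, Matrix.of_apply,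
        Pi.add_apply, Pi.neg_apply, labels_apply]
      rw [h, inner_sub_right]
      ring
  refine (measure_mono hsub).trans ?_
  rw [measure_preimage_add, Measure.addHaar_image_linearMap, LinearMap.det_toLin']
  have hdet : |M.det| = √(gram X).det := by
    rw [gram_eq_mul X b hb, Matrix.det_mul, Matrix.det_transpose, ← hM, Real.sqrt_mul_self_eq_abs]
  rw [hdet]
  refine mul_le_mul_right ?_ _
  set β : ℝ := d / (2 * r ^ 2) with hβ
  have hd0 : (0 : ℝ) < d := by exact_mod_cast hd
  have hβ0 : 0 < β := by positivity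
  rw [← lintegral_indicator_one hZm]
  calc ∫⁻ y, Z.indicator 1 y
      ≤ ∫⁻ y : Fin k → ℝ, ENNReal.ofReal (Real.exp (d / 2)) *
          ∏ i, ENNReal.ofReal (Real.exp (-β * y i ^ 2)) := by
        refine lintegral_mono fun y => ?_
        by_cases hy : y ∈ Z
        · rw [Set.indicator_of_mem hy, Pi.one_apply,
            ← ENNReal.ofReal_prod_of_nonneg (fun _ _ => (Real.exp_pos _).le), ← Real.exp_sum,
            ← ENNReal.ofReal_mul (Real.exp_pos _).le, ← Real.exp_add, ← ENNReal.ofReal_one]
          refine ENNReal.ofReal_le_ofReal ?_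
          rw [Real.one_le_exp_iff, ← Finset.mul_sum]
          have h1 : β * ∑ i, y i ^ 2 ≤ β * r ^ 2 := mul_le_mul_of_nonneg_left hy hβ0.le
          have h2 : β * r ^ 2 = d / 2 := by rw [hβ]; field_simp
          linarith
        · rw [Set.indicator_of_notMem hy]; exact zero_le
    _ = ENNReal.ofReal (Real.exp (d / 2)) * ENNReal.ofReal √(Real.pi / β) ^ k := by
        rw [lintegral_const_mul' _ _ ENNReal.ofReal_ne_top, volume_pi,
          lintegral_prod_pi volume (fun (_ : Fin k) t =>
            ENNReal.ofReal (Real.exp (-β * t ^ 2))) (fun _ => by fun_prop)]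
        rw [Finset.prod_const, Finset.card_univ, Fintype.card_fin,
          ← ofReal_integral_eq_lintegral_ofReal (integrable_exp_neg_mul_sq hβ0)
            (ae_of_all _ fun _ => (Real.exp_pos _).le), integral_gaussian]
    _ = _ := by
        rw [← ENNReal.ofReal_pow (Real.sqrt_nonneg _), ← ENNReal.ofReal_mul (Real.exp_pos _).le]
        congr 3
        have : Real.pi / β = r ^ 2 * (2 * Real.pi / d) := by rw [hβ]; field_simp
        rw [this, Real.sqrt_mul (sq_nonneg r), Real.sqrt_sq hr.le]

lemma mean_volume_image (hkd : k ≤ d) (hd : 1 ≤ d) (c : Euc d) {r : ℝ} (hr : 0 < r) :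
    ∫⁻ X, volume (labels (ι := Fin k) X '' Metric.closedBall c r) ∂rows (Fin k) d
      ≤ ENNReal.ofReal (r ^ k * Real.exp (2 * d)) := by
  refine (lintegral_mono fun X => volume_image_ball hkd hd X c hr).trans ?_
  rw [lintegral_mul_const _ (by fun_prop)]
  refine (mul_le_mul_left (gram_sqrt_mean k hkd) _).trans ?_
  rw [← ENNReal.ofReal_pow (Real.sqrt_nonneg _), ← ENNReal.ofReal_mul (by positivity)]
  refine ENNReal.ofReal_le_ofReal ?_
  have hd0 : (0 : ℝ) < d := by exact_mod_cast hd
  have h1 : √(d : ℝ) * √(2 * Real.pi / d) = √(2 * Real.pi) := by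
    rw [← Real.sqrt_mul hd0.le]; congr 1; field_simp
  have h2 : √(2 * Real.pi) ≤ Real.exp 1 := by
    rw [Real.sqrt_le_iff]
    exact ⟨(Real.exp_pos 1).le, by nlinarith [Real.exp_one_gt_d9, Real.pi_lt_d2]⟩
  have hk' : (k : ℝ) ≤ d := by exact_mod_cast hkd
  calc √(d : ℝ) ^ k * (Real.exp (d / 2) * (r * √(2 * Real.pi / d)) ^ k)
      = r ^ k * (Real.exp (d / 2) * (√(d : ℝ) * √(2 * Real.pi / d)) ^ k) := by ring
    _ ≤ r ^ k * (Real.exp (d / 2) * Real.exp 1 ^ k) := by rw [h1]; gcongr
    _ ≤ _ := by
        rw [Real.exp_one_pow, ← Real.exp_add]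
        gcongr
        linarith

/-- One phase: ball growth bounds are preserved up to a constant factor. -/
lemma phase_growth {A : Type*} [Fintype A] (hd : 1 ≤ d) (hkd : k ≤ d) {α j : ℕ}
    (hα : j + k + 1 ≤ α) {L : ℕ} (hL1 : 1 ≤ L) (hA : Fintype.card A ≤ L ^ (j + 1))
    {h : (Fin k → Euc d) → (Fin k → ℝ) → A → ℝ≥0∞}
    (hm : ∀ a, Measurable fun p : (Fin k → Euc d) × (Fin k → ℝ) => h p.1 p.2 a)
    (hsum : ∀ X y, ∑ a, h X y a ≤ 1) {G : A → Euc d → ℝ≥0∞} (hG : ∀ a, Measurable (G a))
    {F : ℝ} (hF : 0 < F)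
    (hGF : ∀ a c t, 0 < t →
      ∫⁻ s in Metric.closedBall c t, G a s ∂sphereUnif d ≤ ENNReal.ofReal (F * t ^ α))
    (c : Euc d) {r : ℝ} (hr : 0 < r) :
    ∫⁻ s in Metric.closedBall c r, ∫⁻ X, ∑ a, h X (labels X s) a * G a s ∂rows (Fin k) d
        ∂sphereUnif d
      ≤ ENNReal.ofReal ((L : ℝ) * (2 ^ (j + 1) * 4 ^ α * Real.exp (2 * d) + 1) * F * r ^ α) := by
  classical
  set B : ℝ := 2 ^ (j + 1) * 4 ^ α with hB
  set μ := (sphereUnif d).restrict (Metric.closedBall c r)
  set ν : A → Measure (Euc d) := fun a => μ.withDensity (G a)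
  have hνb : ∀ a c' t, 0 < t → ν a (Metric.closedBall c' t) ≤ ENNReal.ofReal (F * t ^ α) := by
    intro a c' t ht
    rw [withDensity_apply _ measurableSet_closedBall,
      Measure.restrict_restrict measurableSet_closedBall]
    exact (lintegral_mono_set Set.inter_subset_left).trans (hGF a c' t ht)
  have hνu : ∀ a, ν a Set.univ ≤ ENNReal.ofReal (F * r ^ α) := by
    intro a
    rw [withDensity_apply _ MeasurableSet.univ, Measure.restrict_univ]
    exact hGF a c r hr
  have : ∀ a, IsFiniteMeasure (ν a) := fun a => ⟨(hνu a).trans_lt ENNReal.ofReal_lt_top⟩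
  have hνs : ∀ a, ∀ᵐ s ∂ν a, s ∈ Metric.closedBall c r := fun a =>
    (withDensity_absolutelyContinuous μ (G a)).ae_le (ae_restrict_mem measurableSet_closedBall)
  have h1 : ∀ X y a, h X y a ≤ 1 := fun X y a =>
    (Finset.single_le_sum (f := h X y) (fun _ _ => zero_le) (Finset.mem_univ a)).trans (hsum X y)
  set Ih : A → Euc d → (Fin k → Euc d) → ℝ≥0∞ := fun a s X => h X (labels X s) a with hIh
  have hIm : ∀ a, Measurable fun p : Euc d × (Fin k → Euc d) => Ih a p.1 p.2 := fun a =>
    (hm a).comp (measurable_snd.prodMk measurable_labels)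
  have hswap : ∫⁻ s, ∫⁻ X, ∑ a, h X (labels X s) a * G a s ∂rows (Fin k) d ∂μ
      = ∫⁻ X, ∑ a, ∫⁻ s, h X (labels X s) a ∂ν a ∂rows (Fin k) d := by
    have hsl : Measurable fun p : Euc d × (Fin k → Euc d) =>
        ∑ a, Ih a p.1 p.2 * G a p.1 :=
      Finset.measurable_sum _ fun a _ => (hIm a).mul ((hG a).comp measurable_fst)
    refine (lintegral_lintegral_swap hsl.aemeasurable).trans (lintegral_congr fun X => ?_)
    have hIX : ∀ a, Measurable fun s => Ih a s X := fun a =>
      (hIm a).comp (measurable_id.prodMk measurable_const)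
    rw [lintegral_finsetSum _ fun a _ => (hIX a).fun_mul (hG a)]
    refine Finset.sum_congr rfl fun a _ => ?_
    rw [lintegral_withDensity_eq_lintegral_mul _ (hG a) (hIX a)]
    exact lintegral_congr fun s => by simp [hIh, mul_comm]
  set lamR : ℝ := F * r ^ α / r ^ k * B * L with hlamR
  have hlam0 : 0 < lamR := by
    have : (0 : ℝ) < L := by exact_mod_cast hL1
    positivity
  set lam := ENNReal.ofReal lamR
  have hl0 : lam ≠ 0 := (ENNReal.ofReal_pos.2 hlam0).ne'
  have hX : ∀ X, ∑ a, ∫⁻ s, h X (labels X s) a ∂ν a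
      ≤ lam * volume (labels X '' Metric.closedBall c r)
        + lam⁻¹ ^ j * ∑ a, sliceLim (ν a) j X := by
    intro X
    set E := labels X '' Metric.closedBall c r
    have hlabc : Continuous (labels X : Euc d → Fin k → ℝ) :=
      continuous_pi fun i => by simp only [labels_apply]; fun_prop
    have hEm : MeasurableSet E :=
      ((isCompact_closedBall c r).image hlabc).measurableSet
    set f : A → (Fin k → ℝ) → ℝ≥0∞ := fun a => E.indicator fun y => h X y a
    have hfm : ∀ a, Measurable (f a) := fun a =>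
      ((hm a).comp (measurable_const.prodMk measurable_id)).indicator hEm
    have hf1 : ∀ a y, f a y ≤ 1 := fun a y => (Set.indicator_le_self _ _ _).trans (h1 _ _ _)
    calc ∑ a, ∫⁻ s, h X (labels X s) a ∂ν a
        = ∑ a, ∫⁻ s, f a (labels X s) ∂ν a := by
          refine Finset.sum_congr rfl fun a _ => lintegral_congr_ae ?_
          filter_upwards [hνs a] with s hs
          exact (Set.indicator_of_mem (show labels X s ∈ E from Set.mem_image_of_mem _ hs)
            (fun y => h X y a)).symm
      _ ≤ ∑ a, (lam * (∫⁻ y, f a y) + lam⁻¹ ^ j * sliceLim (ν a) j X) :=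
          Finset.sum_le_sum fun a _ =>
            slice_dual (ν a) j X (hfm a) (hf1 a) hl0 ENNReal.ofReal_ne_top
      _ ≤ _ := by
          rw [Finset.sum_add_distrib, ← Finset.mul_sum, ← Finset.mul_sum]
          gcongr
          rw [← lintegral_finsetSum _ fun a _ => hfm a, ← lintegral_indicator_one hEm]
          refine lintegral_mono fun y => ?_
          by_cases hy : y ∈ E
          · simp only [f, Set.indicator_of_mem hy, Pi.one_apply]
            exact hsum X y
          · simp [f, Set.indicator_of_notMem hy]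
  change ∫⁻ s, _ ∂μ ≤ _
  rw [hswap]
  refine (lintegral_mono hX).trans ?_
  have hsm : Measurable fun X : Fin k → Euc d => lam⁻¹ ^ j * ∑ a, sliceLim (ν a) j X :=
    (Finset.measurable_sum _ fun a _ => measurable_sliceLim (ν a) j).const_mul _
  rw [lintegral_add_right _ hsm, lintegral_const_mul' _ _ ENNReal.ofReal_ne_top,
    lintegral_const_mul _ (Finset.measurable_sum _ fun a _ => measurable_sliceLim (ν a) j),
    lintegral_finsetSum _ fun a _ => measurable_sliceLim (ν a) j]
  have hlim : ∀ a, ∫⁻ X, sliceLim (k := k) (ν a) j X ∂rows (Fin k) d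
      ≤ ENNReal.ofReal (F * r ^ α) * ENNReal.ofReal (B * F * r ^ α / r ^ k) ^ j := by
    intro a
    refine (lintegral_liminf_le fun n =>
      ((measurable_slice (ν a) _).pow_const _).lintegral_prod_right').trans ?_
    refine liminf_le_of_frequently_le' (Eventually.of_forall fun n => ?_).frequently
    exact (slice_moment hd (ν a) hF.le (hνb a) hr c (hνs a) hα (by positivity)).trans
      (mul_le_mul_left (hνu a) _)
  calc lam * ∫⁻ X, volume (labels X '' Metric.closedBall c r) ∂rows (Fin k) d
        + lam⁻¹ ^ j * ∑ a, ∫⁻ X, sliceLim (ν a) j X ∂rows (Fin k) d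
      ≤ lam * ENNReal.ofReal (r ^ k * Real.exp (2 * d))
        + lam⁻¹ ^ j * ((L ^ (j + 1) : ℕ) *
            (ENNReal.ofReal (F * r ^ α) * ENNReal.ofReal (B * F * r ^ α / r ^ k) ^ j)) := by
        refine add_le_add (mul_le_mul_right (mean_volume_image hkd hd c hr) _)
          (mul_le_mul_right ?_ _)
        refine (Finset.sum_le_sum fun a _ => hlim a).trans ?_
        rw [Finset.sum_const, Finset.card_univ, nsmul_eq_mul]
        exact mul_le_mul_left (by exact_mod_cast hA) _
    _ = _ := by
        have hB0 : 0 < B := by positivity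
        have hL0 : (0 : ℝ) < L := by exact_mod_cast hL1
        rw [← ENNReal.ofReal_natCast, ← ENNReal.ofReal_inv_of_pos hlam0,
          ← ENNReal.ofReal_pow (by positivity), ← ENNReal.ofReal_pow (by positivity),
          ← ENNReal.ofReal_mul (by positivity), ← ENNReal.ofReal_mul (by positivity),
          ← ENNReal.ofReal_mul (by positivity), ← ENNReal.ofReal_mul (by positivity),
          ← ENNReal.ofReal_add (by positivity) (by positivity)]
        congr 1
        have hrk : (r ^ k) ≠ 0 := by positivity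
        have e1 : lamR⁻¹ * (B * F * r ^ α / r ^ k) = (L : ℝ)⁻¹ := by
          rw [hlamR]; field_simp
        have e2 : lamR⁻¹ ^ j * ((L : ℝ) ^ (j + 1) * (F * r ^ α * (B * F * r ^ α / r ^ k) ^ j))
            = (L : ℝ) * (F * r ^ α) := by
          calc lamR⁻¹ ^ j * ((L : ℝ) ^ (j + 1) * (F * r ^ α * (B * F * r ^ α / r ^ k) ^ j))
              = (lamR⁻¹ * (B * F * r ^ α / r ^ k)) ^ j * (L : ℝ) ^ j * ((L : ℝ) * (F * r ^ α)) := by
                rw [mul_pow]; ring
            _ = _ := by rw [e1, inv_pow, inv_mul_cancel₀ (by positivity), one_mul]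
        push_cast
        rw [e2, hlamR, hB]
        field_simp

end Vale.Agent.P309
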