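import Vale.Agent.P309.Chain
import Vale.Agent.P309.Slice

/-!
The linear-in-precision lower bound (P309).
-/

open MeasureTheory ProbabilityTheory
open scoped ENNReal RealInnerProductSpace

namespace Vale.Agent.P309

variable {d : ℕ} {σ : Type} [Fintype σ]

lemma ball_bound {α : ℕ} (hα : 1 ≤ α) (hd : 2 * α + 2 ≤ d) (c : Euc d) {t : ℝ} (ht : 0 < t) :
    sphereUnif d (Metric.closedBall c t)
      ≤ ENNReal.ofReal (4 * 2 ^ d * 80 ^ α * (4 * t) ^ (2 * α)) := by
  by_cases h4 : 1 < 4 * t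
  · refine prob_le_one.trans ?_
    rw [← ENNReal.ofReal_one]
    refine ENNReal.ofReal_le_ofReal ?_
    have h1 : (1 : ℝ) ≤ 4 * 2 ^ d * 80 ^ α :=
      one_le_mul_of_one_le_of_one_le
        (one_le_mul_of_one_le_of_one_le (by norm_num) (one_le_pow₀ one_le_two))
        (one_le_pow₀ (by norm_num))
    exact one_le_mul_of_one_le_of_one_le h1 (one_le_pow₀ h4.le)
  rw [not_lt] at h4
  by_cases hne : ∃ v : Euc d, ‖v‖ = 1 ∧ v ∈ Metric.closedBall c t
  · obtain ⟨v, hv, hvB⟩ := hne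
    refine le_trans (measure_mono_ae ?_) (cap_bound hα hd hv (by linarith) h4)
    filter_upwards [sphere_ae (by omega : 1 ≤ d)] with s hs hsB
    show Real.arccos ⟪v, s⟫ ≤ 4 * t
    have hdist : ‖v - s‖ ≤ 2 * t := by
      have h1 : dist v c ≤ t := Metric.mem_closedBall.1 hvB
      have h2 : dist s c ≤ t := Metric.mem_closedBall.1 hsB
      rw [← dist_eq_norm]
      linarith [dist_triangle_right v s c]
    have hexp : ‖v - s‖ ^ 2 = 2 - 2 * ⟪v, s⟫ := by
      rw [norm_sub_sq_real, hv, hs]; ring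
    set θ := Real.arccos ⟪v, s⟫ with hθ
    have habs := abs_real_inner_le_norm v s
    rw [hv, hs, mul_one] at habs
    have hcos : Real.cos θ = ⟪v, s⟫ := Real.cos_arccos (abs_le.1 habs).1 (abs_le.1 habs).2
    have hθ0 : 0 ≤ θ := Real.arccos_nonneg _
    have hθπ : |θ| ≤ Real.pi := by rw [abs_of_nonneg hθ0]; exact Real.arccos_le_pi _
    have hq := Real.cos_le_one_sub_mul_cos_sq hθπ
    have h2 : ‖v - s‖ ^ 2 ≤ (2 * t) ^ 2 := pow_le_pow_left₀ (norm_nonneg _) hdist 2
    have h3 : 2 / Real.pi ^ 2 * θ ^ 2 ≤ 2 * t ^ 2 := by nlinarith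
    have h4' : θ ^ 2 ≤ (Real.pi * t) ^ 2 := by
      rw [div_mul_eq_mul_div, div_le_iff₀ (by positivity)] at h3
      nlinarith
    have h5 : θ ≤ Real.pi * t :=
      (pow_le_pow_iff_left₀ hθ0 (by positivity) two_ne_zero).1 h4'
    nlinarith [Real.pi_lt_four]
  · refine le_of_eq_of_le ?_ zero_le
    refine measure_mono_null (fun s hs => ?_) (ae_iff.1 (sphere_ae (by omega : 1 ≤ d)))
    exact fun h => hne ⟨s, h, hs⟩

omit [Fintype σ] in
lemma hit_growth [Fintype σ] (L : Learner d σ) {α : ℕ} (hα : 1 ≤ α) (hd : 2 * α + 2 ≤ d) {ε : ℝ}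
    (hε : 0 < ε) (hε1 : ε ≤ 1) (t : ℕ) (z : σ) (c : Euc d) {ρ : ℝ} (hρ : 0 < ρ) :
    ∫⁻ s in Metric.closedBall c ρ, L.hit ε t z s ∂sphereUnif d
      ≤ ENNReal.ofReal (4 * 2 ^ d * 80 ^ α * (4 * ε) ^ α * ρ ^ α) := by
  rcases le_total ε (4 * ρ) with h | h
  · refine (setLIntegral_le_lintegral _ _).trans ((hit_int L
      (fun v hv => cap_bound hα hd hv hε hε1) t z).trans (ENNReal.ofReal_le_ofReal ?_))
    calc 4 * 2 ^ d * 80 ^ α * ε ^ (2 * α) = 4 * 2 ^ d * 80 ^ α * (ε ^ α * ε ^ α) := by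
          rw [two_mul α, pow_add]
      _ ≤ 4 * 2 ^ d * 80 ^ α * (ε ^ α * (4 * ρ) ^ α) := by gcongr
      _ = _ := by rw [mul_pow, mul_pow]; ring
  · refine (setLIntegral_mono measurable_const fun s _ => hit_le_one L ε t z s).trans ?_
    rw [setLIntegral_const, one_mul]
    refine (ball_bound hα hd c hρ).trans (ENNReal.ofReal_le_ofReal ?_)
    calc 4 * 2 ^ d * 80 ^ α * (4 * ρ) ^ (2 * α)
        = 4 * 2 ^ d * 80 ^ α * ((4 * ρ) ^ α * (4 * ρ) ^ α) := by rw [two_mul α, pow_add]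
      _ ≤ 4 * 2 ^ d * 80 ^ α * (ε ^ α * (4 * ρ) ^ α) := by gcongr
      _ = _ := by rw [mul_pow, mul_pow]; ring

/-- Iterating `phase_growth`. -/
lemma win_growth [DecidableEq σ] (L : Learner d σ) {K m α Q : ℕ} (hK : 1 ≤ K) (hm : m + K + 1 ≤ α)
    (hd : 2 * α + 2 ≤ d) (hQ : 1 ≤ Q) (hσ : Fintype.card σ * (K + 1) ≤ Q ^ (m + 1)) {ε : ℝ}
    (hε : 0 < ε) (hε1 : ε ≤ 1) :
    ∀ j r t z, r ≤ j * K → ∀ (c : Euc d) (ρ : ℝ), 0 < ρ →
      ∫⁻ s in Metric.closedBall c ρ, L.win ε r t z s ∂sphereUnif d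
        ≤ ENNReal.ofReal (((Q : ℝ) * (2 ^ (m + 1) * 4 ^ α * Real.exp (2 * d) + 1)) ^ j *
            (4 * 2 ^ d * 80 ^ α * (4 * ε) ^ α) * ρ ^ α) := by
  set P := (Q : ℝ) * (2 ^ (m + 1) * 4 ^ α * Real.exp (2 * d) + 1) with hP
  set F := (4 : ℝ) * 2 ^ d * 80 ^ α * (4 * ε) ^ α with hF
  have hF0 : 0 < F := by positivity
  have hP1 : 1 ≤ P := one_le_mul_of_one_le_of_one_le (by exact_mod_cast hQ)
    (le_add_of_nonneg_left (by positivity))
  have hbase : ∀ (j t : ℕ) (z : σ) (c : Euc d) (ρ : ℝ), 0 < ρ →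
      ∫⁻ s in Metric.closedBall c ρ, L.hit ε t z s ∂sphereUnif d
        ≤ ENNReal.ofReal (P ^ j * F * ρ ^ α) := by
    intro j t z c ρ hρ
    refine (hit_growth L (by omega) hd hε hε1 t z c hρ).trans (ENNReal.ofReal_le_ofReal ?_)
    refine mul_le_mul_of_nonneg_right ?_ (by positivity)
    exact le_mul_of_one_le_left hF0.le (one_le_pow₀ hP1)
  intro j
  induction j with
  | zero =>
    intro r t z hr
    obtain rfl : r = 0 := by simpa using hr
    simp only [Learner.win]
    exact hbase 0 t z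
  | succ j ih =>
    intro r t z hr c ρ hρ
    rcases Nat.eq_zero_or_pos r with rfl | hr0
    · simp only [Learner.win]
      exact hbase _ t z c ρ hρ
    obtain ⟨k, r', rfl, hk1, hkK, hkr⟩ :
        ∃ k r', r = r' + k ∧ 1 ≤ k ∧ k ≤ K ∧ (k = K ∨ r' = 0) :=
      ⟨min K r, r - min K r, by omega, by omega, by omega, by omega⟩
    have hr' : r' ≤ j * K := by
      rw [Nat.add_mul, one_mul] at hr
      omega
    have hG : ∀ a : σ × Option (Fin k), Measurable (L.after ε r' t a) := by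
      rintro ⟨z₁, _ | i⟩
      · exact measurable_win L ε r' _ z₁
      · exact measurable_hit L ε _ z₁
    have hGF : ∀ (a : σ × Option (Fin k)) c' t', 0 < t' →
        ∫⁻ s in Metric.closedBall c' t', L.after ε r' t a s ∂sphereUnif d
          ≤ ENNReal.ofReal (P ^ j * F * t' ^ α) := by
      rintro ⟨z₁, _ | i⟩ c' t' ht'
      · exact ih r' _ z₁ hr' c' t' ht'
      · exact hbase j _ z₁ c' t' ht'
    have hA : Fintype.card (σ × Option (Fin k)) ≤ Q ^ (m + 1) := by
      simp only [Fintype.card_prod, Fintype.card_option, Fintype.card_fin]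
      exact le_trans (Nat.mul_le_mul_left _ (by omega)) hσ
    simp only [win_unfold L ε r' _ k t z]
    refine (phase_growth (j := m) (L := Q) (by omega) (by omega) (by omega) hQ hA
      (L.run_meas k t z) (fun X y => le_of_eq (L.run_sum k t z X y)) hG
      (mul_pos (pow_pos (lt_of_lt_of_le one_pos hP1) j) hF0) hGF c hρ).trans (le_of_eq ?_)
    rw [hP, pow_succ]
    congr 1
    ring

/-- The main bound. -/
lemma success_linear {d M T : ℕ} (hd : 32 ≤ d) {ε : ℝ} (hε : 0 < ε) (σ : Type) [Fintype σ]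
    (hσ : Fintype.card σ ≤ 2 ^ M) (L : Learner d σ)
    (hL : 1000 * (1 + (M : ℝ) / (d : ℝ) ^ 2) ≤ Real.log (1 / ε))
    (hT : (T : ℝ) ≤ 1 / 16384 * d * Real.log (1 / ε) / (1 + (M : ℝ) / (d : ℝ) ^ 2)) :
    L.success ε T < 2 / 3 := by
  classical
  set N := 1 + (M : ℝ) / (d : ℝ) ^ 2 with hN
  set Lg := Real.log (1 / ε) with hLg
  have hN1 : 1 ≤ N := by rw [hN]; exact le_add_of_nonneg_right (by positivity)
  have hε1 : ε ≤ 1 := by
    by_contra h
    have h0 : Lg ≤ 0 := Real.log_nonpos (by positivity) (by rw [div_le_one hε]; linarith)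
    linarith
  set K := d / 16 with hK
  set α := d / 4 with hα
  set m := d / 16 - 1 with hm
  set q := (M + d) / (m + 1) + 1 with hq
  set J := T / K + 1 with hJ
  have hK1 : 1 ≤ K := by omega
  have hm1 : m + 1 = K := by omega
  have hcard : Fintype.card σ * (K + 1) ≤ (2 ^ q) ^ (m + 1) := by
    rw [← pow_mul]
    calc Fintype.card σ * (K + 1) ≤ 2 ^ M * 2 ^ d :=
          Nat.mul_le_mul hσ (le_trans (by omega : K + 1 ≤ d) (Nat.lt_two_pow_self).le)
      _ = 2 ^ (M + d) := (pow_add _ _ _).symm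
      _ ≤ _ := Nat.pow_le_pow_right (by norm_num) (by
          have h1 := Nat.div_add_mod (M + d) (m + 1)
          have h2 := Nat.mod_lt (M + d) (show m + 1 > 0 by omega)
          rw [hq, Nat.add_mul, one_mul, Nat.mul_comm]
          omega)
  have hTJ : T ≤ J * K := by
    have := Nat.div_add_mod T K
    have := Nat.mod_lt T (show K > 0 by omega)
    rw [show J * K = T / K * K + K by rw [hJ]; ring, Nat.mul_comm (T / K) K]
    omega
  have hgrow := win_growth L hK1 (m := m) (α := α) (Q := 2 ^ q) (by omega) (by omega)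
    Nat.one_le_two_pow hcard hε hε1
  set P := ((2 ^ q : ℕ) : ℝ) * (2 ^ (m + 1) * 4 ^ α * Real.exp (2 * d) + 1) with hP
  set F := (4 : ℝ) * 2 ^ d * 80 ^ α * (4 * ε) ^ α with hF
  have hd0 : (0 : ℝ) < d := by exact_mod_cast (by omega : 0 < d)
  have hd32 : (32 : ℝ) ≤ d := by exact_mod_cast hd
  have hP1 : 1 ≤ P := one_le_mul_of_one_le_of_one_le (by exact_mod_cast Nat.one_le_two_pow)
    (le_add_of_nonneg_left (by positivity))
  have hPb : P ≤ Real.exp (32 * d * N) := by
    have hq' : (q : ℝ) ≤ 32 * ((M : ℝ) + d) / d + 1 := by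
      rw [hq]; push_cast
      have h1 : (((M + d) / (m + 1) : ℕ) : ℝ) ≤ ((M + d : ℕ) : ℝ) / ((m + 1 : ℕ) : ℝ) :=
        Nat.cast_div_le
      have h2 : (d : ℝ) ≤ 32 * ((m + 1 : ℕ) : ℝ) := by exact_mod_cast (by omega : d ≤ 32 * (m + 1))
      have h3 : ((M + d : ℕ) : ℝ) / ((m + 1 : ℕ) : ℝ) ≤ 32 * ((M : ℝ) + d) / d := by
        rw [div_le_div_iff₀ (by positivity) hd0]
        push_cast at h2 ⊢
        have h0 : (0 : ℝ) ≤ (M : ℝ) + d := by positivity
        nlinarith [mul_le_mul_of_nonneg_left h2 h0]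
      linarith
    have hα' : 4 * (α : ℝ) ≤ d := by exact_mod_cast (by omega : 4 * α ≤ d)
    have hm' : 16 * (((m + 1 : ℕ)) : ℝ) ≤ d := by exact_mod_cast (by omega : 16 * (m + 1) ≤ d)
    have h1 : (1 : ℝ) ≤ 2 ^ (m + 1) * 4 ^ α * Real.exp (2 * d) :=
      one_le_mul_of_one_le_of_one_le (one_le_mul_of_one_le_of_one_le (one_le_pow₀ one_le_two)
        (one_le_pow₀ (by norm_num))) (Real.one_le_exp (by positivity))
    calc P ≤ ((2 ^ q : ℕ) : ℝ) * (2 * (2 ^ (m + 1) * 4 ^ α * Real.exp (2 * d))) := by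
          rw [hP]; gcongr; linarith
      _ = 2 ^ (q + 1 + (m + 1) + 2 * α) * Real.exp (2 * d) := by
          rw [pow_add, pow_add, pow_add, pow_mul]
          push_cast
          norm_num
          ring
      _ ≤ Real.exp ((q + 1 + (m + 1) + 2 * α : ℕ) : ℝ) * Real.exp (2 * d) := by
          gcongr
          rw [← Real.exp_one_pow]
          exact pow_le_pow_left₀ (by norm_num) (by linarith [Real.exp_one_gt_d9]) _
      _ ≤ _ := by
          rw [← Real.exp_add, Real.exp_le_exp]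
          have hsplit : 32 * ((M : ℝ) + d) / d = 32 * ((M : ℝ) / d) + 32 := by field_simp
          have hN' : 32 * (d : ℝ) * N = 32 * (d : ℝ) + 32 * ((M : ℝ) / d) := by
            rw [hN]; field_simp
          push_cast at hm' ⊢
          linarith
  have hFb : F ≤ Real.exp (3 * d - d * Lg / 8) := by
    have heps : ε = Real.exp (-Lg) := by
      rw [hLg, one_div, Real.log_inv, neg_neg, Real.exp_log hε]
    have he1 : (2 : ℝ) ≤ Real.exp 1 := by linarith [Real.exp_one_gt_d9]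
    have h4 : (4 : ℝ) ≤ Real.exp 2 := by
      calc (4 : ℝ) = 2 ^ 2 := by norm_num
        _ ≤ Real.exp 1 ^ 2 := pow_le_pow_left₀ (by norm_num) he1 2
        _ = Real.exp 2 := by rw [Real.exp_one_pow]; norm_num
    have h320 : (320 : ℝ) ≤ Real.exp 6 := by
      calc (320 : ℝ) ≤ 2.7 ^ 6 := by norm_num
        _ ≤ Real.exp 1 ^ 6 := pow_le_pow_left₀ (by norm_num) (by linarith [Real.exp_one_gt_d9]) 6
        _ = Real.exp 6 := by rw [Real.exp_one_pow]; norm_num
    have hεα : ε ^ α = Real.exp (-((α : ℝ) * Lg)) := by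
      rw [heps, ← Real.exp_nat_mul]
      ring_nf
    calc F = 4 * 2 ^ d * 320 ^ α * ε ^ α := by
          rw [hF, mul_pow, show (320 : ℝ) = 80 * 4 by norm_num, mul_pow]; ring
      _ ≤ Real.exp 2 * Real.exp (d : ℝ) * Real.exp (6 * (α : ℝ)) * Real.exp (-((α : ℝ) * Lg)) := by
          rw [← hεα, mul_comm (6 : ℝ), Real.exp_nat_mul]
          gcongr
          rw [← Real.exp_one_pow]
          exact pow_le_pow_left₀ (by norm_num) he1 _
      _ ≤ _ := by
          simp only [← Real.exp_add]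
          rw [Real.exp_le_exp]
          have hα' : 4 * (α : ℝ) ≤ d := by exact_mod_cast (by omega : 4 * α ≤ d)
          have hα2 : (d : ℝ) ≤ 8 * α := by exact_mod_cast (by omega : d ≤ 8 * α)
          have := mul_le_mul_of_nonneg_right hα2 (by linarith : (0 : ℝ) ≤ Lg)
          linarith
  have hJb : 32 * (d : ℝ) * N * J ≤ 32 * (d : ℝ) * N + d * Lg / 16 := by
    have h1 : ((T / K : ℕ) : ℝ) ≤ (T : ℝ) / K := Nat.cast_div_le
    have hKlo : (d : ℝ) ≤ 32 * K := by exact_mod_cast (by omega : d ≤ 32 * K)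
    have hK0 : (0 : ℝ) < K := by exact_mod_cast hK1
    have h2 : (T : ℝ) / K ≤ 32 * T / d := by
      rw [div_le_div_iff₀ hK0 hd0]
      nlinarith [mul_le_mul_of_nonneg_left hKlo (by positivity : (0 : ℝ) ≤ (T : ℝ))]
    have h3 : (T : ℝ) * N ≤ 1 / 16384 * d * Lg := (le_div_iff₀ (by linarith)).1 hT
    have h4 : 32 * (d : ℝ) * N * ((T / K : ℕ) : ℝ) ≤ 32 * (d : ℝ) * N * (32 * T / d) :=
      mul_le_mul_of_nonneg_left (h1.trans h2) (by positivity)
    have h5 : 32 * (d : ℝ) * N * (32 * T / d) = 1024 * (T * N) := by field_simp; ring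
    rw [hJ]; push_cast
    linarith
  have hPF : P ^ J * F ≤ 1 / 2 := by
    calc P ^ J * F ≤ Real.exp (32 * d * N) ^ J * Real.exp (3 * d - d * Lg / 8) := by
          gcongr
      _ = Real.exp (32 * d * N * J + (3 * d - d * Lg / 8)) := by
          rw [← Real.exp_nat_mul, ← Real.exp_add]; ring_nf
      _ ≤ Real.exp (-1) := by
          rw [Real.exp_le_exp]
          have h1 : (d : ℝ) * (1000 * N) ≤ d * Lg := mul_le_mul_of_nonneg_left hL hd0.le
          have h2 : (d : ℝ) * 1 ≤ d * N := mul_le_mul_of_nonneg_left hN1 hd0.le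
          linarith
      _ ≤ 1 / 2 := by
          rw [Real.exp_neg, one_div]
          exact inv_anti₀ (by norm_num) (by linarith [Real.exp_one_gt_d9])
  have hball : (sphereUnif d).restrict (Metric.closedBall 0 1) = sphereUnif d := by
    refine Measure.restrict_eq_self_of_ae_mem ?_
    filter_upwards [sphere_ae (by omega : 1 ≤ d)] with s hs
    simp [hs]
  have hwin : ∀ z, ∫⁻ s, L.win ε T 0 z s ∂sphereUnif d ≤ ENNReal.ofReal (1 / 2) := by
    intro z
    have h := hgrow J T 0 z hTJ 0 1 one_pos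
    rw [hball, one_pow, mul_one] at h
    exact h.trans (ENNReal.ofReal_le_ofReal hPF)
  have hhit : ∀ z, ∫⁻ s, L.hit ε 0 z s ∂sphereUnif d ≤ ENNReal.ofReal (1 / 2) := by
    intro z
    have h := hit_growth L (α := α) (by omega) (by omega) hε hε1 0 z 0 one_pos
    rw [hball, one_pow, mul_one] at h
    exact h.trans (ENNReal.ofReal_le_ofReal
      (le_trans (le_mul_of_one_le_left (by positivity) (one_le_pow₀ hP1)) hPF))
  have hbound : L.success ε T ≤ ENNReal.ofReal (1 / 2) := by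
    unfold Learner.success
    rw [lintegral_finsetSum _ fun z _ => ((measurable_hit L ε 0 z).const_mul _).fun_add
      ((measurable_win L ε T 0 z).const_mul _)]
    calc ∑ z, ∫⁻ s, (L.init z true * L.hit ε 0 z s + L.init z false * L.win ε T 0 z s)
          ∂sphereUnif d
        ≤ ∑ z, (L.init z true + L.init z false) * ENNReal.ofReal (1 / 2) := by
          refine Finset.sum_le_sum fun z _ => ?_
          rw [lintegral_add_left ((measurable_hit L ε 0 z).const_mul _),
            lintegral_const_mul _ (measurable_hit L ε 0 z),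
            lintegral_const_mul _ (measurable_win L ε T 0 z), add_mul]
          exact add_le_add (mul_le_mul_right (hhit z) _) (mul_le_mul_right (hwin z) _)
      _ = _ := by
          rw [← Finset.sum_mul]
          have : ∑ z, (L.init z true + L.init z false) = 1 := by
            rw [← L.init_sum]
            exact Finset.sum_congr rfl fun z _ => (Fintype.sum_bool _).symm
          rw [this, one_mul]
  refine lt_of_le_of_lt hbound ?_
  rw [show (2 / 3 : ℝ≥0∞) = ENNReal.ofReal (2 / 3) by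
    rw [ENNReal.ofReal_div_of_pos (by norm_num)]; norm_num]
  exact (ENNReal.ofReal_lt_ofReal_iff (by norm_num)).2 (by norm_num)

end Vale.Agent.P309
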