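import Vale.Agent.P309.GramTail

/-!
Moments of slices of measures with ball growth bounds (P309).
-/

open MeasureTheory ProbabilityTheory
open scoped ENNReal RealInnerProductSpace

namespace Vale.Agent.P309

variable {d : ℕ}

/-- Vectors whose inner products with all `D i` are at most `η`. -/
def slabs {l : ℕ} (η : ℝ) (D : Fin l → Euc d) : Set (Euc d) := {x | ∀ i, |⟪x, D i⟫| ≤ η}

lemma measurableSet_slabs {l : ℕ} (η : ℝ) (D : Fin l → Euc d) : MeasurableSet (slabs η D) := by
  unfold slabs
  simp only [Set.ofPred_forall]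
  exact MeasurableSet.iInter fun i => measurableSet_le (by fun_prop) measurable_const

/-- Gaussian anti-concentration in a direction orthogonal to the constraints. -/
lemma slabs_cons {l : ℕ} (hd : 1 ≤ d) (D : Fin l → Euc d) (e u : Euc d) (hu : ‖u‖ = 1)
    (huD : ∀ i, ⟪u, D i⟫ = 0) {η : ℝ} (hη : 0 < η) :
    stdGaussian (Euc d) (slabs η (Fin.cons e D : Fin (l + 1) → Euc d))
      ≤ stdGaussian (Euc d) (slabs η D) * (ENNReal.ofReal η / ENNReal.ofReal |⟪u, e⟫|) := by
  classical
  have hsub : slabs η (Fin.cons e D : Fin (l + 1) → Euc d) ⊆ slabs η D := fun x hx i => by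
    simpa only [Fin.cons_succ] using hx (Fin.succ i)
  by_cases hρ : ⟪u, e⟫ = 0
  · rcases eq_or_ne (stdGaussian (Euc d) (slabs η D)) 0 with h | h
    · rw [h, zero_mul]
      exact le_of_le_of_eq (measure_mono hsub) h
    · rw [hρ, abs_zero, ENNReal.ofReal_zero, ENNReal.div_zero (by simpa using hη),
        ENNReal.mul_top h]
      exact le_top
  obtain ⟨b, hb⟩ := exists_adapted_basis (ι := Fin 1) (κ := Fin (d - 1))
    (by simp; omega) (fun _ => u)
  have hb' : ∀ j, ⟪b (Sum.inr j), u⟫ = 0 := fun j => hb 0 j
  set b0 := b (Sum.inl 0) with hb0def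
  have hb0 : ⟪b0, u⟫ ^ 2 = 1 := by
    have := b.sum_sq_inner_right u
    simpa [Fintype.sum_sum_type, hb', hu] using this
  have hexpu : ∀ w, ⟪u, w⟫ = ⟪b0, u⟫ * ⟪b0, w⟫ := by
    intro w
    rw [← b.sum_inner_mul_inner u w, Fintype.sum_sum_type]
    have hb'' : ∀ j, ⟪u, b (Sum.inr j)⟫ = 0 := fun j => by rw [real_inner_comm]; exact hb' j
    simp [hb'', hb0def, real_inner_comm (b (Sum.inl 0)) u]
  have hs0 : ⟪b0, u⟫ ≠ 0 := by intro h; rw [h] at hb0; norm_num at hb0
  have hb0D : ∀ i, ⟪b0, D i⟫ = 0 := fun i => by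
    have := hexpu (D i)
    rw [huD i] at this
    exact (mul_eq_zero.1 this.symm).resolve_left hs0
  set ρ := ⟪b0, e⟫ with hρdef
  have hρabs : |⟪u, e⟫| = |ρ| := by
    have h1 : |⟪b0, u⟫| = 1 := by
      have := hb0
      rw [← sq_abs] at this
      exact (pow_eq_one_iff_of_nonneg (abs_nonneg _) two_ne_zero).1 this
    rw [hexpu e, abs_mul, h1, one_mul]
  have hρ0 : ρ ≠ 0 := by
    intro h
    apply hρ
    rw [hexpu e, ← hρdef, h, mul_zero]
  set S1 : Set (Euc d) := slabs η (Fin.cons e D : Fin (l + 1) → Euc d)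
  have hS1 : MeasurableSet S1 := measurableSet_slabs _ _
  set rest : (Fin (d - 1) → ℝ) → Euc d := fun v => ∑ j, v j • b (Sum.inr j) with hrest
  have hsplit : ∀ (z : Fin 1 → ℝ) (v : Fin (d - 1) → ℝ) (w : Euc d),
      ⟪∑ i, Sum.elim z v i • b i, w⟫ = z 0 * ⟪b0, w⟫ + ⟪rest v, w⟫ := by
    intro z v w
    simp [Fintype.sum_sum_type, hrest, inner_add_left, inner_smul_left, hb0def]
  rw [← lintegral_indicator_one hS1, ← lintegral_indicator_one (measurableSet_slabs η D),
    lintegral_stdGaussian b (measurable_one.indicator hS1),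
    lintegral_stdGaussian b (measurable_one.indicator (measurableSet_slabs η D)),
    lintegral_gpi_sum (by
      exact (measurable_one.indicator hS1).comp (by fun_prop)),
    lintegral_gpi_sum (by
      exact (measurable_one.indicator (measurableSet_slabs η D)).comp (by fun_prop))]
  have hres : ∀ (z : Fin 1 → ℝ) (v : Fin (d - 1) → ℝ),
      (slabs η D).indicator (1 : Euc d → ℝ≥0∞) (∑ i, Sum.elim z v i • b i)
        = (slabs η D).indicator 1 (rest v) := by
    intro z v
    have : (∑ i, Sum.elim z v i • b i) ∈ slabs η D ↔ rest v ∈ slabs η D := by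
      simp only [slabs, Set.mem_ofPred_eq, hsplit, hb0D, mul_zero, zero_add]
    by_cases h : rest v ∈ slabs η D
    · rw [Set.indicator_of_mem h, Set.indicator_of_mem (this.2 h)]
      rfl
    · rw [Set.indicator_of_notMem h, Set.indicator_of_notMem (mt this.1 h)]
  simp only [hres, lintegral_const, measure_univ, mul_one]
  have hm1 : Measurable fun q : (Fin 1 → ℝ) × (Fin (d - 1) → ℝ) =>
      S1.indicator (1 : Euc d → ℝ≥0∞) (∑ i, Sum.elim q.1 q.2 i • b i) := by
    refine (measurable_one.indicator hS1).comp ?_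
    simp only [Fintype.sum_sum_type, Sum.elim_inl, Sum.elim_inr]
    fun_prop
  rw [lintegral_lintegral_swap hm1.aemeasurable, hρabs,
    ← lintegral_mul_const _ (show Measurable fun v =>
        (slabs η D).indicator (1 : Euc d → ℝ≥0∞) (rest v) from
      (measurable_one.indicator (measurableSet_slabs η D)).comp
        (by fun_prop : Measurable rest))]
  refine lintegral_mono fun v => ?_
  set a := ⟪rest v, e⟫ with ha
  set I : Set (Fin 1 → ℝ) := {z | |z 0 * ρ + a| ≤ η} with hI
  have hIm : MeasurableSet I := measurableSet_le (by fun_prop) measurable_const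
  calc ∫⁻ z, S1.indicator (1 : Euc d → ℝ≥0∞) (∑ i, Sum.elim z v i • b i) ∂gpi (Fin 1)
      ≤ ∫⁻ z, (slabs η D).indicator (1 : Euc d → ℝ≥0∞) (rest v) * I.indicator 1 z ∂gpi (Fin 1) := by
        refine lintegral_mono fun z => ?_
        by_cases h : (∑ i, Sum.elim z v i • b i) ∈ S1
        · have h0 : z ∈ I := by
            have := h 0
            simp only [Fin.cons_zero, hsplit] at this
            exact this
          have hD : rest v ∈ slabs η D := fun i => by
            have := h (Fin.succ i)
            simpa only [Fin.cons_succ, hsplit, hb0D, mul_zero, zero_add] using this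
          rw [Set.indicator_of_mem h, Set.indicator_of_mem h0, Set.indicator_of_mem hD]
          simp
        · rw [Set.indicator_of_notMem h]
          exact zero_le
    _ = (slabs η D).indicator (1 : Euc d → ℝ≥0∞) (rest v) * gpi (Fin 1) I := by
        rw [lintegral_const_mul _ (measurable_one.indicator hIm), lintegral_indicator_one hIm]
    _ ≤ _ := by
        refine mul_le_mul_right ?_ _
        set J : Set ℝ := Set.Icc ((-η - a) / ρ) ((η - a) / ρ) ∪ Set.Icc ((η - a) / ρ) ((-η - a) / ρ)
          with hJ
        have hIJ : I ⊆ Set.univ.pi fun _ : Fin 1 => J := by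
          intro z hz i _
          rw [Subsingleton.elim i 0]
          obtain ⟨h1, h2⟩ := abs_le.1 (show |z 0 * ρ + a| ≤ η from hz)
          rcases lt_or_gt_of_ne hρ0 with h | h
          · right
            constructor
            · rw [div_le_iff_of_neg h]; linarith
            · rw [le_div_iff_of_neg h]; linarith
          · left
            constructor
            · rw [div_le_iff₀ h]; linarith
            · rw [le_div_iff₀ h]; linarith
        calc gpi (Fin 1) I ≤ gaussianReal 0 1 J := by
              refine (measure_mono hIJ).trans ?_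
              simp [gpi, Measure.pi_pi]
          _ ≤ ENNReal.ofReal (1 / 2) * volume J := by
              rw [gaussianReal_apply 0 one_ne_zero, ← setLIntegral_const]
              refine setLIntegral_mono measurable_const fun t _ => ?_
              rw [gaussianPDF_one]
              refine ENNReal.ofReal_le_ofReal ?_
              have h2 : (2 : ℝ) ≤ √(2 * Real.pi) :=
                Real.le_sqrt_of_sq_le (by nlinarith [Real.pi_gt_three])
              calc (√(2 * Real.pi))⁻¹ * Real.exp (-t ^ 2 / 2) ≤ (2 : ℝ)⁻¹ * 1 :=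
                    mul_le_mul (inv_anti₀ (by norm_num) h2)
                      (Real.exp_le_one_iff.2 (by nlinarith)) (Real.exp_pos _).le (by norm_num)
                _ = 1 / 2 := by norm_num
          _ ≤ ENNReal.ofReal (1 / 2) * ENNReal.ofReal (2 * η / |ρ|) := by
              gcongr
              rcases lt_or_gt_of_ne hρ0 with h | h
              · have hle : (η - a) / ρ ≤ (-η - a) / ρ :=
                  (div_le_div_right_of_neg h).2 (by linarith)
                rw [hJ, Set.union_eq_right.2 (by
                  rintro t ⟨h1, h2⟩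
                  exact ⟨by linarith, by linarith⟩), Real.volume_Icc, abs_of_neg h]
                refine ENNReal.ofReal_le_ofReal (le_of_eq ?_)
                field_simp
                ring
              · have hle : (-η - a) / ρ ≤ (η - a) / ρ := by gcongr; linarith
                rw [hJ, Set.union_eq_left.2 (by
                  rintro t ⟨h1, h2⟩
                  exact ⟨by linarith, by linarith⟩), Real.volume_Icc, abs_of_pos h]
                refine ENNReal.ofReal_le_ofReal (le_of_eq ?_)
                field_simp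
                ring
          _ = _ := by
              rw [← ENNReal.ofReal_mul (by norm_num), ← ENNReal.ofReal_div_of_pos
                (abs_pos.2 hρ0)]
              congr 1
              ring

/-- A measure with ball growth is small near subspaces. -/
lemma near_bound (ν : Measure (Euc d)) [IsFiniteMeasure ν] {F : ℝ} (hF : 0 ≤ F) {α : ℕ}
    (hν : ∀ c t, 0 < t → ν (Metric.closedBall c t) ≤ ENNReal.ofReal (F * t ^ α))
    {r t : ℝ} (ht : 0 < t) (htr : t ≤ 2 * r) (s₁ : Euc d)
    (W : Submodule ℝ (Euc d)) {l : ℕ} (hl : Module.finrank ℝ W ≤ l) :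
    ν {s | ‖s - s₁‖ ≤ 2 * r ∧ ‖(s - s₁) - W.starProjection (s - s₁)‖ ≤ t}
      ≤ ENNReal.ofReal ((4 * r / t) ^ l * (F * (2 * t) ^ α)) := by
  set n := Module.finrank ℝ W with hn
  set e : EuclideanSpace ℝ (Fin n) ≃ₗᵢ[ℝ] W := (stdOrthonormalBasis ℝ W).repr.symm
  set S : Set (Euc d) :=
    {s | ‖s - s₁‖ ≤ 2 * r ∧ ‖(s - s₁) - W.starProjection (s - s₁)‖ ≤ t} with hS
  have hSm : MeasurableSet S := by
    refine MeasurableSet.inter (s₁ := {s : Euc d | ‖s - s₁‖ ≤ 2 * r})
      (s₂ := {s : Euc d | ‖(s - s₁) - W.starProjection (s - s₁)‖ ≤ t}) ?_ ?_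
    · exact measurableSet_le (by fun_prop) measurable_const
    · exact measurableSet_le (by fun_prop) measurable_const
  set ψ : EuclideanSpace ℝ (Fin n) → Euc d := fun v => s₁ + (e v : Euc d) with hψ
  have hψc : Continuous ψ := continuous_const.add (continuous_subtype_val.comp e.continuous)
  set Q : Set (EuclideanSpace ℝ (Fin n) × Euc d) :=
    {p | p.1 ∈ Metric.closedBall 0 (4 * r) ∧ dist p.2 (ψ p.1) ≤ 2 * t} with hQ
  have hQm : MeasurableSet Q :=
    (measurable_fst measurableSet_closedBall).inter
      (measurableSet_le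
        ((continuous_snd.dist (hψc.comp continuous_fst)).measurable) measurable_const)
  set Z := (volume : Measure (EuclideanSpace ℝ (Fin n))) (Metric.closedBall 0 t) with hZ
  have h1 : Z * ν S ≤ ((volume : Measure (EuclideanSpace ℝ (Fin n))).prod ν) Q := by
    rw [Measure.prod_apply_symm hQm, ← setLIntegral_const]
    refine (setLIntegral_mono' hSm fun s hs => ?_).trans (setLIntegral_le_lintegral S _)
    set w := W.orthogonalProjectionOnto (s - s₁) with hw
    have hwn : ‖e.symm w‖ ≤ 2 * r := by
      rw [e.symm.norm_map]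
      exact (W.norm_orthogonalProjectionOnto_apply_le _).trans hs.1
    rw [hZ, ← Measure.addHaar_closedBall_center volume (e.symm w)]
    refine measure_mono fun v hv => ?_
    rw [Metric.mem_closedBall] at hv
    refine ⟨?_, ?_⟩
    · rw [Metric.mem_closedBall, dist_zero_right]
      calc ‖v‖ ≤ ‖v - e.symm w‖ + ‖e.symm w‖ := norm_le_norm_sub_add v (e.symm w)
        _ ≤ t + 2 * r := add_le_add (by rwa [← dist_eq_norm]) hwn
        _ ≤ 4 * r := by linarith
    · have h2 : ‖(w : Euc d) - (e v : Euc d)‖ ≤ t := by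
        rw [← Submodule.coe_sub, ← Submodule.coe_norm, ← e.apply_symm_apply w, ← map_sub,
          e.norm_map, ← dist_eq_norm, dist_comm]
        exact hv
      rw [dist_eq_norm]
      calc ‖s - ψ v‖ = ‖((s - s₁) - (w : Euc d)) + ((w : Euc d) - (e v : Euc d))‖ := by
            simp only [hψ]; congr 1; abel
        _ ≤ t + t := (norm_add_le _ _).trans (add_le_add hs.2 h2)
        _ = 2 * t := by ring
  have h2 : ((volume : Measure (EuclideanSpace ℝ (Fin n))).prod ν) Q
      ≤ volume (Metric.closedBall (0 : EuclideanSpace ℝ (Fin n)) (4 * r)) *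
          ENNReal.ofReal (F * (2 * t) ^ α) := by
    rw [Measure.prod_apply hQm, mul_comm, ← lintegral_indicator_const measurableSet_closedBall]
    refine lintegral_mono fun v => ?_
    by_cases hv : v ∈ Metric.closedBall (0 : EuclideanSpace ℝ (Fin n)) (4 * r)
    · rw [Set.indicator_of_mem hv]
      refine (measure_mono fun s hs => ?_).trans (hν (ψ v) (2 * t) (by linarith))
      exact hs.2
    · rw [Set.indicator_of_notMem hv]
      refine le_of_eq (measure_mono_null (fun s hs => ?_) measure_empty)
      exact hv hs.1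
  have hr : 0 < r := by linarith
  have hscale : volume (Metric.closedBall (0 : EuclideanSpace ℝ (Fin n)) (4 * r))
      = ENNReal.ofReal ((4 * r / t) ^ n) * Z := by
    have := Measure.addHaar_closedBall_mul (volume : Measure (EuclideanSpace ℝ (Fin n)))
      (0 : EuclideanSpace ℝ (Fin n)) (r := 4 * r / t) (s := t) (by positivity) ht.le
    rw [div_mul_cancel₀ _ ht.ne', finrank_euclideanSpace, Fintype.card_fin] at this
    exact this
  have hZ0 : Z ≠ 0 := (Metric.measure_closedBall_pos _ _ ht).ne'
  have hZt : Z ≠ ⊤ := (measure_closedBall_lt_top).ne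
  have h3 := h1.trans h2
  rw [hscale, mul_comm _ Z, mul_assoc, ENNReal.mul_le_mul_iff_right hZ0 hZt,
    ← ENNReal.ofReal_mul (by positivity)] at h3
  refine h3.trans (ENNReal.ofReal_le_ofReal ?_)
  refine mul_le_mul_of_nonneg_right ?_ (by positivity)
  refine pow_le_pow_right₀ ?_ hl
  rw [le_div_iff₀ ht]; linarith

/-- Integrals of negative powers of the distance to a subspace. -/
lemma kernel_bound (ν : Measure (Euc d)) [IsFiniteMeasure ν] {F : ℝ} (hF : 0 ≤ F) {α : ℕ}
    (hν : ∀ c t, 0 < t → ν (Metric.closedBall c t) ≤ ENNReal.ofReal (F * t ^ α))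
    {r : ℝ} (hr : 0 < r) (s₁ : Euc d) (hs : ∀ᵐ s ∂ν, ‖s - s₁‖ ≤ 2 * r)
    (W : Submodule ℝ (Euc d)) {l m k : ℕ} (hl : Module.finrank ℝ W ≤ l) (hlm : l ≤ m)
    (hα : l + k + 1 ≤ α) :
    ∫⁻ s, (ENNReal.ofReal ‖(s - s₁) - W.starProjection (s - s₁)‖)⁻¹ ^ k ∂ν
      ≤ ENNReal.ofReal (2 ^ (m + 1) * 4 ^ α * F * r ^ α / r ^ k) := by
  set ρ : Euc d → ℝ := fun s => ‖(s - s₁) - W.starProjection (s - s₁)‖ with hρ
  set t : ℕ → ℝ := fun i => 2 * r * (1 / 2) ^ i with ht
  have ht0 : ∀ i, 0 < t i := fun i => by positivity
  have htr : ∀ i, t i ≤ 2 * r := fun i =>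
    mul_le_of_le_one_right (by linarith) (pow_le_one₀ (by norm_num) (by norm_num))
  set S : ℕ → Set (Euc d) := fun i => {s | ‖s - s₁‖ ≤ 2 * r ∧ ρ s ≤ t i} with hS
  have hSm : ∀ i, MeasurableSet (S i) := by
    intro i
    refine MeasurableSet.inter (s₁ := {s : Euc d | ‖s - s₁‖ ≤ 2 * r})
      (s₂ := {s : Euc d | ρ s ≤ t i}) ?_ ?_
    · exact measurableSet_le (by fun_prop) measurable_const
    · exact measurableSet_le (by simp only [hρ]; fun_prop) measurable_const
  set w : ℕ → ℝ≥0∞ := fun i => ENNReal.ofReal ((t (i + 1) ^ k)⁻¹) with hw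
  have hpt : ∀ s, ‖s - s₁‖ ≤ 2 * r →
      (ENNReal.ofReal (ρ s))⁻¹ ^ k ≤ ∑' i, (S i).indicator (fun _ => w i) s := by
    intro s hs
    have hρle : ρ s ≤ 2 * r := by
      refine le_trans ?_ hs
      simp only [hρ]
      rw [← Submodule.starProjection_orthogonal_val]
      exact Wᗮ.norm_starProjection_apply_le _
    rcases eq_or_lt_of_le (norm_nonneg ((s - s₁) - W.starProjection (s - s₁))) with h0 | h0
    · have hmem : ∀ i, s ∈ S i := fun i => ⟨hs, by
        show ρ s ≤ t i
        simp only [hρ]; rw [← h0]; exact (ht0 i).le⟩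
      simp only [Set.indicator_of_mem (hmem _)]
      refine le_of_le_of_eq le_top (top_unique ?_).symm
      have hw0 : w 0 ≠ 0 := by
        simp only [hw]
        exact (ENNReal.ofReal_pos.2 (inv_pos.2 (pow_pos (ht0 _) k))).ne'
      rw [← ENNReal.tsum_const_eq_top_of_ne_zero (α := ℕ) hw0]
      refine ENNReal.tsum_le_tsum fun i => ?_
      simp only [hw]
      refine ENNReal.ofReal_le_ofReal (inv_anti₀ (pow_pos (ht0 _) k)
        (pow_le_pow_left₀ (ht0 _).le ?_ k))
      simp only [ht]
      refine mul_le_mul_of_nonneg_left ?_ (by linarith)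
      exact pow_le_pow_of_le_one (by norm_num) (by norm_num) (by omega)
    · obtain ⟨i, hi1, hi2⟩ := exists_nat_pow_near_of_lt_one
        (x := ρ s / (2 * r)) (by positivity) ((div_le_one (by positivity)).2 hρle)
        (by norm_num : (0 : ℝ) < 1 / 2) (by norm_num : (1 / 2 : ℝ) < 1)
      have hmem : s ∈ S i := ⟨hs, by
        rw [div_le_iff₀ (by positivity)] at hi2
        show ρ s ≤ t i
        simp only [ht]; linarith⟩
      refine le_trans ?_ (ENNReal.le_tsum i)
      rw [Set.indicator_of_mem hmem]
      simp only [hw]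
      rw [← ENNReal.ofReal_inv_of_pos h0, ← ENNReal.ofReal_pow (by positivity)]
      refine ENNReal.ofReal_le_ofReal ?_
      rw [inv_pow]
      refine inv_anti₀ (pow_pos (ht0 _) k) (pow_le_pow_left₀ (ht0 _).le ?_ k)
      rw [lt_div_iff₀ (by positivity)] at hi1
      simp only [ht]; linarith
  calc ∫⁻ s, (ENNReal.ofReal (ρ s))⁻¹ ^ k ∂ν
      ≤ ∫⁻ s, ∑' i, (S i).indicator (fun _ => w i) s ∂ν :=
        lintegral_mono_ae (hs.mono hpt)
    _ = ∑' i, w i * ν (S i) := by
        rw [lintegral_tsum fun i => (measurable_const.indicator (hSm i)).aemeasurable]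
        exact tsum_congr fun i => lintegral_indicator_const (hSm i) _
    _ ≤ ∑' i : ℕ, ENNReal.ofReal (2 ^ m * 4 ^ α * F * r ^ α / r ^ k * (1 / 2) ^ i) := by
        refine ENNReal.tsum_le_tsum fun i => ?_
        refine (mul_le_mul_right (near_bound ν hF hν (ht0 i) (htr i) s₁ W hl) _).trans ?_
        simp only [hw]
        rw [← ENNReal.ofReal_mul (by have := ht0 (i+1); positivity)]
        refine ENNReal.ofReal_le_ofReal ?_
        simp only [ht]
        set q : ℝ := (1 / 2) ^ i with hq
        have hq0 : 0 < q := by positivity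
        have hq1 : q ≤ 1 := pow_le_one₀ (by norm_num) (by norm_num)
        have e1 : 4 * r / (2 * r * q) = 2 / q := by field_simp; ring
        have e2 : 2 * r * (1 / 2) ^ (i + 1) = r * q := by rw [pow_succ, ← hq]; ring
        rw [e1, e2, show 2 * (2 * r * q) = 4 * (r * q) by ring]
        obtain ⟨j, rfl⟩ := Nat.exists_eq_add_of_le hα
        have hkey : ((r * q) ^ k)⁻¹ * ((2 / q) ^ l * (F * (4 * (r * q)) ^ (l + k + 1 + j)))
            = 2 ^ l * 4 ^ (l + k + 1 + j) * F * r ^ (l + k + 1 + j) / r ^ k * (q * q ^ j) := by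
          simp only [mul_pow, div_pow, pow_add, pow_one]
          field_simp
        rw [hkey]
        gcongr
        · norm_num
        · exact mul_le_of_le_one_right hq0.le (pow_le_one₀ hq0.le hq1)
    _ = _ := by
        rw [← ENNReal.ofReal_tsum_of_nonneg (fun i => by positivity)
          (summable_geometric_two.mul_left _), tsum_mul_left, tsum_geometric_two]
        congr 1
        ring

/-- Averaged powers of slab masses around a point. -/
lemma slab_moment (hd : 1 ≤ d) (ν : Measure (Euc d)) [IsFiniteMeasure ν] {F : ℝ} (hF : 0 ≤ F)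
    {α : ℕ} (hν : ∀ c t, 0 < t → ν (Metric.closedBall c t) ≤ ENNReal.ofReal (F * t ^ α))
    {r : ℝ} (hr : 0 < r) (s₁ : Euc d) (hs : ∀ᵐ s ∂ν, ‖s - s₁‖ ≤ 2 * r)
    {m k : ℕ} (hα : m + k + 1 ≤ α) {η : ℝ} (hη : 0 < η) :
    ∀ (j l : ℕ), l + j ≤ m → ∀ D : Fin l → Euc d,
      ∫⁻ X, (Set.univ.pi fun _ : Fin k => slabs η D).indicator
          (fun X => ν {s | ∀ i, |⟪X i, s - s₁⟫| ≤ η} ^ j) X ∂rows (Fin k) d
        ≤ stdGaussian (Euc d) (slabs η D) ^ k *
          (ENNReal.ofReal η ^ k * ENNReal.ofReal (2 ^ (m + 1) * 4 ^ α * F * r ^ α / r ^ k)) ^ j := by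
  intro j
  induction j with
  | zero =>
    intro l _ D
    simp only [pow_zero, mul_one]
    rw [lintegral_indicator_const (MeasurableSet.univ_pi fun _ => measurableSet_slabs η D),
      one_mul, rows, Measure.pi_pi]
    simp
  | succ j ih =>
    intro l hl D
    set U : Set ((Fin k → Euc d) × Euc d) := {p | ∀ i, |⟪p.1 i, p.2 - s₁⟫| ≤ η} with hU
    have hUm : MeasurableSet U := by
      simp only [hU, Set.ofPred_forall]
      exact MeasurableSet.iInter fun i => measurableSet_le (by fun_prop) measurable_const
    have hνm : Measurable fun X : Fin k → Euc d => ν {s | ∀ i, |⟪X i, s - s₁⟫| ≤ η} :=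
      measurable_measure_prodMk_left hUm
    set P : Set (Fin k → Euc d) := Set.univ.pi fun _ => slabs η D
    have hPm : MeasurableSet P := MeasurableSet.univ_pi fun _ => measurableSet_slabs η D
    have hstep : ∀ X : Fin k → Euc d,
        P.indicator (fun X => ν {s | ∀ i, |⟪X i, s - s₁⟫| ≤ η} ^ (j + 1)) X
          = ∫⁻ s, (Set.univ.pi fun _ : Fin k =>
              slabs η (Fin.cons (s - s₁) D : Fin (l + 1) → Euc d)).indicator
              (fun X => ν {s | ∀ i, |⟪X i, s - s₁⟫| ≤ η} ^ j) X ∂ν := by
      intro X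
      set T : Set (Euc d) := {s | ∀ i, |⟪X i, s - s₁⟫| ≤ η} with hT
      have hTm : MeasurableSet T := measurable_prodMk_left hUm
      by_cases hX : X ∈ P
      · rw [Set.indicator_of_mem hX, pow_succ, ← lintegral_indicator_const hTm]
        refine lintegral_congr fun s => ?_
        have hiff : X ∈ (Set.univ.pi fun _ : Fin k =>
            slabs η (Fin.cons (s - s₁) D : Fin (l + 1) → Euc d)) ↔ s ∈ T := by
          constructor
          · intro h i; simpa using h i (Set.mem_univ i) 0
          · intro h i _ a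
            refine Fin.cases ?_ (fun a' => ?_) a
            · simpa using h i
            · simpa using hX i (Set.mem_univ i) a'
        by_cases hsT : s ∈ T
        · rw [Set.indicator_of_mem hsT, Set.indicator_of_mem (hiff.2 hsT)]
        · rw [Set.indicator_of_notMem hsT, Set.indicator_of_notMem (mt hiff.1 hsT)]
      · rw [Set.indicator_of_notMem hX]
        refine (lintegral_eq_zero_of_ae_eq_zero (ae_of_all _ fun s => ?_)).symm
        rw [Pi.zero_apply, Set.indicator_of_notMem]
        intro h
        exact hX fun i _ a => by simpa using h i (Set.mem_univ i) a.succ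
    have hjoint : Measurable fun p : (Fin k → Euc d) × Euc d =>
        (Set.univ.pi fun _ : Fin k =>
              slabs η (Fin.cons (p.2 - s₁) D : Fin (l + 1) → Euc d)).indicator
              (fun X => ν {s | ∀ i, |⟪X i, s - s₁⟫| ≤ η} ^ j) p.1 := by
      have hA : MeasurableSet {p : (Fin k → Euc d) × Euc d |
          p.1 ∈ Set.univ.pi fun _ : Fin k =>
            slabs η (Fin.cons (p.2 - s₁) D : Fin (l + 1) → Euc d)} := by
        have : {p : (Fin k → Euc d) × Euc d | p.1 ∈ Set.univ.pi fun _ : Fin k =>
            slabs η (Fin.cons (p.2 - s₁) D : Fin (l + 1) → Euc d)}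
            = U ∩ (Prod.fst ⁻¹' P) := by
          ext p
          simp only [Set.mem_ofPred_eq, Set.mem_pi, Set.mem_univ, forall_true_left, slabs,
            Fin.forall_fin_succ, Fin.cons_zero, Fin.cons_succ, Set.mem_inter_iff, hU,
            Set.mem_preimage, P, forall_and]
        rw [this]
        exact hUm.inter (measurable_fst hPm)
      classical
      simp only [Set.indicator_apply]
      exact Measurable.ite hA ((hνm.pow_const j).comp measurable_fst) measurable_const
    rw [lintegral_congr hstep, lintegral_lintegral_swap hjoint.aemeasurable]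
    set c0 := ENNReal.ofReal η ^ k * ENNReal.ofReal (2 ^ (m + 1) * 4 ^ α * F * r ^ α / r ^ k)
    set W := Submodule.span ℝ (Set.range D)
    calc ∫⁻ s, ∫⁻ X, _ ∂rows (Fin k) d ∂ν
        ≤ ∫⁻ s, stdGaussian (Euc d) (slabs η (Fin.cons (s - s₁) D : Fin (l + 1) → Euc d)) ^ k
            * c0 ^ j ∂ν := lintegral_mono fun s => ih (l + 1) (by omega) _
      _ ≤ ∫⁻ s, (stdGaussian (Euc d) (slabs η D) ^ k * c0 ^ j * ENNReal.ofReal η ^ k) *
            (ENNReal.ofReal ‖(s - s₁) - W.starProjection (s - s₁)‖)⁻¹ ^ k ∂ν := by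
          refine lintegral_mono fun s => ?_
          set e := s - s₁
          set e' := e - W.starProjection e with he'
          have hp : stdGaussian (Euc d) (slabs η (Fin.cons e D : Fin (l + 1) → Euc d))
              ≤ stdGaussian (Euc d) (slabs η D) * (ENNReal.ofReal η * (ENNReal.ofReal ‖e'‖)⁻¹) := by
            by_cases h0 : e' = 0
            · rcases eq_or_ne (stdGaussian (Euc d) (slabs η D)) 0 with h | h
              · rw [h, zero_mul]
                have hsub : slabs η (Fin.cons e D : Fin (l + 1) → Euc d) ⊆ slabs η D :=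
                  fun x hx i => by simpa only [Fin.cons_succ] using hx (Fin.succ i)
                exact le_of_le_of_eq (measure_mono hsub) h
              · rw [h0, norm_zero, ENNReal.ofReal_zero, ENNReal.inv_zero,
                  ENNReal.mul_top (by simpa using hη), ENNReal.mul_top h]
                exact le_top
            · have hperp : ∀ w ∈ W, ⟪e', w⟫ = 0 := fun w hw =>
                W.starProjection_inner_eq_zero e w hw
              set u := ‖e'‖⁻¹ • e'
              have hu : ‖u‖ = 1 := norm_smul_inv_norm h0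
              have huD : ∀ i, ⟪u, D i⟫ = 0 := fun i => by
                rw [real_inner_smul_left, hperp _ (Submodule.subset_span ⟨i, rfl⟩), mul_zero]
              refine (slabs_cons hd D e u hu huD hη).trans (le_of_eq ?_)
              rw [div_eq_mul_inv]
              congr 4
              have h3 : ⟪e', e⟫ = ‖e'‖ ^ 2 := by
                have h4 := hperp _ (W.starProjection_apply_mem e)
                rw [← real_inner_self_eq_norm_sq]
                conv_rhs => rw [he', inner_sub_right, ← he', h4, sub_zero]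
              rw [real_inner_smul_left, h3, abs_of_nonneg (by positivity), sq, ← mul_assoc,
                inv_mul_cancel₀ (norm_ne_zero_iff.2 h0), one_mul]
          calc stdGaussian (Euc d) (slabs η (Fin.cons e D : Fin (l + 1) → Euc d)) ^ k * c0 ^ j
              ≤ (stdGaussian (Euc d) (slabs η D) *
                  (ENNReal.ofReal η * (ENNReal.ofReal ‖e'‖)⁻¹)) ^ k * c0 ^ j := by gcongr
            _ = _ := by ring
      _ ≤ stdGaussian (Euc d) (slabs η D) ^ k * c0 ^ j * ENNReal.ofReal η ^ k *
            ENNReal.ofReal (2 ^ (m + 1) * 4 ^ α * F * r ^ α / r ^ k) := by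
          rw [lintegral_const_mul _ (by fun_prop)]
          refine mul_le_mul_right (kernel_bound ν hF hν hr s₁ hs W
            (l := l) ?_ (by omega) (by omega)) _
          exact (finrank_range_le_card D).trans (by simp)
      _ = _ := by simp only [c0]; ring

end Vale.Agent.P309
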