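import Vale.Agent.P309.GaussPi

/-!
Marginals of the uniform measure on the sphere (P309).
-/

open MeasureTheory ProbabilityTheory Matrix
open scoped ENNReal RealInnerProductSpace

namespace Vale.Agent.P309

/-- Euclidean space. -/
abbrev Euc (d : ℕ) : Type := EuclideanSpace ℝ (Fin d)

/-- The uniform probability measure on the unit sphere: the direction of a standard Gaussian. -/
noncomputable def sphereUnif (d : ℕ) : Measure (Euc d) :=
  (stdGaussian (Euc d)).map fun g => ‖g‖⁻¹ • g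

instance sphereUnif_prob (d : ℕ) : IsProbabilityMeasure (sphereUnif d) := by
  unfold sphereUnif
  exact Measure.isProbabilityMeasure_map (by fun_prop)

/-- The Gram matrix of a finite family. -/
noncomputable def gram {d : ℕ} {ι : Type*} (a : ι → Euc d) : Matrix ι ι ℝ :=
  Matrix.of fun i j => ⟪a i, a j⟫

lemma radial_two (H : ℝ → ℝ≥0∞) (hH : Measurable H) :
    ∫⁻ v : Fin 2 → ℝ, H (v 0 ^ 2 + v 1 ^ 2)
      = ENNReal.ofReal Real.pi * ∫⁻ q in Set.Ioi 0, H q := by
  have hm : Measurable fun p : ℝ × ℝ => H (p.1 ^ 2 + p.2 ^ 2) := by fun_prop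
  have h1 : ∫⁻ v : Fin 2 → ℝ, H (v 0 ^ 2 + v 1 ^ 2) = ∫⁻ p : ℝ × ℝ, H (p.1 ^ 2 + p.2 ^ 2) := by
    rw [← (volume_preserving_finTwoArrow ℝ).lintegral_comp hm]
    rfl
  rw [h1, ← lintegral_comp_polarCoord_symm]
  simp only [polarCoord_symm_apply, smul_eq_mul, mul_pow, ← mul_add, Real.cos_sq_add_sin_sq,
    mul_one]
  rw [show polarCoord.target = Set.Ioi (0 : ℝ) ×ˢ Set.Ioo (-Real.pi) Real.pi from rfl,
    Measure.volume_eq_prod, ← Measure.prod_restrict,
    lintegral_prod _ (by fun_prop)]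
  simp only [lintegral_const, Measure.restrict_apply MeasurableSet.univ, Set.univ_inter,
    Real.volume_Ioo]
  have himg : (fun r : ℝ => r ^ 2) '' Set.Ioi 0 = Set.Ioi 0 := by
    ext q
    constructor
    · rintro ⟨r, hr, rfl⟩
      exact Set.mem_Ioi.2 (pow_pos (Set.mem_Ioi.1 hr) 2)
    · intro hq
      exact ⟨√q, Real.sqrt_pos.2 hq, Real.sq_sqrt (le_of_lt hq)⟩
  have hsub := lintegral_image_eq_lintegral_abs_deriv_mul (f := fun r : ℝ => r ^ 2)
    (f' := fun r : ℝ => 2 * r) (s := Set.Ioi (0 : ℝ)) measurableSet_Ioi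
    (fun x _ => by simpa using (hasDerivAt_pow 2 x).hasDerivWithinAt)
    (fun x hx y hy h => by
      simpa [sq_eq_sq₀ (le_of_lt (Set.mem_Ioi.1 hx)) (le_of_lt (Set.mem_Ioi.1 hy))] using h) H
  rw [himg] at hsub
  rw [hsub, ← lintegral_const_mul _ (by fun_prop)]
  refine setLIntegral_congr_fun measurableSet_Ioi fun r hr => ?_
  have hr' : (0 : ℝ) ≤ r := le_of_lt hr
  rw [abs_of_nonneg (by positivity : (0 : ℝ) ≤ 2 * r), ← mul_assoc, ← ENNReal.ofReal_mul
    Real.pi_pos.le, mul_right_comm, ← ENNReal.ofReal_mul hr']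
  ring_nf

lemma lintegral_shift (A : ℝ) (h : ℝ → ℝ≥0∞) :
    ∫⁻ q in Set.Ioi 0, h (A + q) = ∫⁻ R, (Set.Ioi A).indicator h R := by
  rw [← lintegral_indicator measurableSet_Ioi,
    ← lintegral_add_left_eq_self ((Set.Ioi A).indicator h) A]
  refine lintegral_congr fun q => ?_
  by_cases hq : 0 < q
  · rw [Set.indicator_of_mem (Set.mem_Ioi.2 hq),
      Set.indicator_of_mem (Set.mem_Ioi.2 (by linarith : A < A + q))]
  · rw [Set.indicator_of_notMem (by simpa using hq),
      Set.indicator_of_notMem (by simp; linarith)]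

lemma lintegral_pow_exp (K : ℕ) :
    ∫⁻ R in Set.Ioi (0 : ℝ), ENNReal.ofReal (2⁻¹ * Real.exp (-R / 4) * R ^ K)
      ≤ ENNReal.ofReal (4 * (K.factorial * 8 ^ K)) := by
  have hK : (0 : ℝ) < K.factorial := by exact_mod_cast K.factorial_pos
  calc ∫⁻ R in Set.Ioi (0 : ℝ), ENNReal.ofReal (2⁻¹ * Real.exp (-R / 4) * R ^ K)
      ≤ ∫⁻ R in Set.Ioi (0 : ℝ),
          ENNReal.ofReal (2⁻¹ * (K.factorial * 8 ^ K) * Real.exp (-(1 / 8) * R)) := by
        refine setLIntegral_mono (by fun_prop) fun R hR => ENNReal.ofReal_le_ofReal ?_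
        have h := Real.pow_div_factorial_le_exp (R / 8) (div_nonneg (le_of_lt hR) (by norm_num)) K
        rw [div_le_iff₀ hK, div_pow, div_le_iff₀ (by positivity)] at h
        have h2 : Real.exp (-R / 4) * R ^ K
            ≤ Real.exp (-R / 4) * (Real.exp (R / 8) * K.factorial * 8 ^ K) :=
          mul_le_mul_of_nonneg_left h (Real.exp_pos _).le
        have h3 : Real.exp (-R / 4) * Real.exp (R / 8) = Real.exp (-(1 / 8) * R) := by
          rw [← Real.exp_add]; congr 1; ring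
        calc 2⁻¹ * Real.exp (-R / 4) * R ^ K
            ≤ 2⁻¹ * (Real.exp (-R / 4) * (Real.exp (R / 8) * K.factorial * 8 ^ K)) := by
              nlinarith
          _ = _ := by rw [← h3]; ring
    _ = ENNReal.ofReal (4 * (K.factorial * 8 ^ K)) := by
        rw [← ofReal_integral_eq_lintegral_ofReal
          ((integrableOn_exp_mul_Ioi (by norm_num) 0).const_mul _)
          (ae_of_all _ fun R => by positivity)]
        congr 1
        rw [integral_const_mul, integral_exp_mul_Ioi (by norm_num) 0]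
        simp; ring

lemma lintegral_gauss_quarter :
    ∫⁻ t : ℝ, ENNReal.ofReal ((√(2 * Real.pi))⁻¹ * Real.exp (-t ^ 2 / 4)) ≤ 2 := by
  calc ∫⁻ t : ℝ, ENNReal.ofReal ((√(2 * Real.pi))⁻¹ * Real.exp (-t ^ 2 / 4))
      ≤ ∫⁻ t : ℝ, 2 * gaussianPDF 0 2 t := by
        refine lintegral_mono fun t => ?_
        rw [gaussianPDF, show (2 : ℝ≥0∞) = ENNReal.ofReal 2 by simp,
          ← ENNReal.ofReal_mul (by norm_num)]
        refine ENNReal.ofReal_le_ofReal ?_
        simp only [gaussianPDFReal, NNReal.coe_ofNat, sub_zero]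
        rw [show (-t ^ 2 / (2 * 2) : ℝ) = -t ^ 2 / 4 by ring, ← mul_assoc]
        refine mul_le_mul_of_nonneg_right ?_ (Real.exp_pos _).le
        have hs : (0 : ℝ) < √(2 * Real.pi) := Real.sqrt_pos.2 (by positivity)
        have h2 : √(2 * Real.pi * 2) = √(2 * Real.pi) * √2 := Real.sqrt_mul (by positivity) 2
        have h3 : √(2 : ℝ) ≤ 2 := by
          rw [Real.sqrt_le_iff]; norm_num
        have h4 : (0 : ℝ) < √2 := by positivity
        rw [h2, mul_inv, mul_left_comm]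
        refine le_mul_of_one_le_right (by positivity) ?_
        rw [← div_eq_mul_inv, one_le_div h4]
        exact h3
    _ = 2 := by
        rw [lintegral_const_mul _ (measurable_gaussianPDF 0 2),
          lintegral_gaussianPDF_eq_one 0 two_ne_zero, mul_one]

/-- Linear marginals of the uniform measure on the sphere have a density bounded by
`4 * 2^m * K! * 8^K / √(det gram)`. -/
lemma sphere_marginal {d K m : ℕ} {ι : Type*} [Fintype ι] [DecidableEq ι]
    (hι : Fintype.card ι = 2 * K) (hd : 2 * K + (m + 2) = d) (a : ι → Euc d)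
    (ha : 0 < (gram a).det) {φ : (ι → ℝ) → ℝ≥0∞} (hφ : Measurable φ) :
    ∫⁻ s, φ (fun i => ⟪a i, s⟫) ∂sphereUnif d
      ≤ ENNReal.ofReal (4 * 2 ^ m * (K.factorial * 8 ^ K) / √(gram a).det) * ∫⁻ y, φ y := by
  obtain ⟨b, hb⟩ := exists_adapted_basis (κ := Fin m ⊕ Fin 2) (by simp [hι, hd]) a
  set M : Matrix ι ι ℝ := Matrix.of fun i j => ⟪a i, b (Sum.inl j)⟫ with hM
  have hb' : ∀ i j, ⟪a i, b (Sum.inr j)⟫ = 0 := fun i j => by
    rw [real_inner_comm]; exact hb i j
  have hg : gram a = M * Mᵀ := by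
    ext i i'
    rw [Matrix.mul_apply, gram, Matrix.of_apply, ← b.sum_inner_mul_inner, Fintype.sum_sum_type]
    simp [hM, hb', real_inner_comm (b _) (a i')]
  have hdet : (gram a).det = M.det ^ 2 := by rw [hg, det_mul, det_transpose, sq]
  have hdne : M.det ≠ 0 := by
    intro h; rw [hdet, h] at ha; simp at ha
  have habs : √(gram a).det = |M.det| := by rw [hdet, Real.sqrt_sq_eq_abs]
  set Φ : (ι → ℝ) → ℝ → ℝ≥0∞ := fun z R => φ fun i => (√R)⁻¹ * ∑ j, M i j * z j with hΦ
  have hΦm : Measurable fun p : (ι → ℝ) × ℝ => Φ p.1 p.2 := by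
    simp only [hΦ]
    refine hφ.comp ?_
    refine measurable_pi_lambda _ fun i => ?_
    fun_prop
  have hsphere : Measurable fun g : Euc d => ‖g‖⁻¹ • g := by fun_prop
  have hψ : Measurable fun s : Euc d => φ fun i => ⟪a i, s⟫ := by
    refine hφ.comp (measurable_pi_lambda _ fun i => ?_)
    fun_prop
  have hcoord : ∀ (z : ι → ℝ) (w : Fin m → ℝ) (v : Fin 2 → ℝ),
      let g := ∑ i, Sum.elim z (Sum.elim w v) i • b i
      φ (fun i => ⟪a i, ‖g‖⁻¹ • g⟫)
        = Φ z ((∑ j, z j ^ 2 + ∑ j, w j ^ 2) + (v 0 ^ 2 + v 1 ^ 2)) := by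
    intro z w v g
    set x : ι ⊕ (Fin m ⊕ Fin 2) → ℝ := Sum.elim z (Sum.elim w v) with hx
    have hrep : ∀ k, ⟪b k, g⟫ = x k := fun k => b.orthonormal.inner_right_fintype x k
    have hn : ‖g‖ = √((∑ j, z j ^ 2 + ∑ j, w j ^ 2) + (v 0 ^ 2 + v 1 ^ 2)) := by
      rw [eq_comm, Real.sqrt_eq_iff_eq_sq (by positivity) (norm_nonneg _),
        ← b.sum_sq_inner_right]
      simp only [hrep, hx, Fintype.sum_sum_type, Sum.elim_inl, Sum.elim_inr, Fin.sum_univ_two]
      ring
    have hag : ∀ i, ⟪a i, g⟫ = ∑ j, M i j * z j := by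
      intro i
      rw [← b.sum_inner_mul_inner (a i) g, Fintype.sum_sum_type]
      simp [hrep, hx, hb', hM]
    simp only [hΦ]
    congr 1
    funext i
    rw [real_inner_smul_right, hn, hag]
  have hI : ∫⁻ s, φ (fun i => ⟪a i, s⟫) ∂sphereUnif d
      = ∫⁻ z, ∫⁻ w, ∫⁻ v, Φ z ((∑ j, z j ^ 2 + ∑ j, w j ^ 2) + (v 0 ^ 2 + v 1 ^ 2))
          ∂gpi (Fin 2) ∂gpi (Fin m) ∂gpi ι := by
    rw [sphereUnif, lintegral_map hψ hsphere]
    have hc : Measurable fun g : Euc d => φ fun i => ⟪a i, ‖g‖⁻¹ • g⟫ := hψ.comp hsphere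
    have hc' : Measurable fun x : ι ⊕ (Fin m ⊕ Fin 2) → ℝ =>
        φ fun i => ⟪a i, ‖∑ k, x k • b k‖⁻¹ • ∑ k, x k • b k⟫ :=
      hc.comp (by fun_prop : Measurable fun x : ι ⊕ (Fin m ⊕ Fin 2) → ℝ => ∑ k, x k • b k)
    rw [lintegral_stdGaussian b hc, lintegral_gpi_sum hc']
    refine lintegral_congr fun z => ?_
    have hel : Measurable fun v : Fin m ⊕ Fin 2 → ℝ =>
        (Sum.elim z v : ι ⊕ (Fin m ⊕ Fin 2) → ℝ) := measurable_pi_lambda _ fun k => by
      cases k
      · exact measurable_const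
      · exact measurable_pi_apply _
    have hz' : Measurable fun v : Fin m ⊕ Fin 2 → ℝ =>
        φ fun i => ⟪a i, ‖∑ k, Sum.elim z v k • b k‖⁻¹ • ∑ k, Sum.elim z v k • b k⟫ :=
      hc'.comp hel
    rw [lintegral_gpi_sum hz']
    exact lintegral_congr fun w => lintegral_congr fun v => hcoord z w v
  have hinner : ∀ (z : ι → ℝ) (A : ℝ), ∫⁻ v, Φ z (A + (v 0 ^ 2 + v 1 ^ 2)) ∂gpi (Fin 2)
      = ∫⁻ R, (Set.Ioi A).indicator
          (fun R => ENNReal.ofReal (2⁻¹ * Real.exp (-(R - A) / 2)) * Φ z R) R := by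
    intro z A
    have hzm : Measurable (Φ z) := hΦm.comp (measurable_const.prodMk measurable_id)
    set H : ℝ → ℝ≥0∞ := fun q =>
      ENNReal.ofReal ((√(2 * Real.pi))⁻¹ ^ 2 * Real.exp (-q / 2)) * Φ z (A + q) with hH
    have hHm : Measurable H := by
      simp only [hH]
      exact (by fun_prop : Measurable fun q : ℝ =>
        ENNReal.ofReal ((√(2 * Real.pi))⁻¹ ^ 2 * Real.exp (-q / 2))).mul
          (hzm.comp (by fun_prop))
    have hmv : Measurable fun v : Fin 2 → ℝ => Φ z (A + (v 0 ^ 2 + v 1 ^ 2)) :=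
      hzm.comp (by fun_prop)
    rw [lintegral_gpi hmv]
    have : ∀ v : Fin 2 → ℝ, gdens (Fin 2) v * Φ z (A + (v 0 ^ 2 + v 1 ^ 2))
        = H (v 0 ^ 2 + v 1 ^ 2) := by
      intro v; simp [hH, gdens_eq, Fin.sum_univ_two]
    rw [lintegral_congr this, radial_two H hHm, ← lintegral_const_mul _ hHm,
      ← lintegral_shift A]
    refine setLIntegral_congr_fun measurableSet_Ioi fun q _ => ?_
    simp only [hH]
    rw [← mul_assoc, ← ENNReal.ofReal_mul Real.pi_pos.le]
    congr 2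
    rw [inv_pow, Real.sq_sqrt (by positivity)]
    field_simp
    ring_nf
  set η : ℝ → ℝ≥0∞ := fun R =>
    (Set.Ioi (0 : ℝ)).indicator (fun R => ENNReal.ofReal (2⁻¹ * Real.exp (-R / 4))) R with hη
  have hηm : Measurable η := (Measurable.indicator (by fun_prop) measurableSet_Ioi)
  set P : (Fin m → ℝ) → ℝ≥0∞ := fun w =>
    ∏ j, ENNReal.ofReal ((√(2 * Real.pi))⁻¹ * Real.exp (-(w j) ^ 2 / 4)) with hP
  have hPm : Measurable P := Finset.measurable_prod _ fun j _ => by fun_prop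
  have hPint : ∫⁻ w, P w ≤ 2 ^ m := by
    simp only [hP]
    rw [volume_pi, lintegral_prod_pi volume
      (fun (_ : Fin m) t => ENNReal.ofReal ((√(2 * Real.pi))⁻¹ * Real.exp (-t ^ 2 / 4)))
      fun _ => by fun_prop]
    calc ∏ _j : Fin m, _ ≤ ∏ _j : Fin m, (2 : ℝ≥0∞) :=
          Finset.prod_le_prod' fun _ _ => lintegral_gauss_quarter
      _ = 2 ^ m := by simp
  have hc1 : (√(2 * Real.pi))⁻¹ ≤ 1 := by
    apply inv_le_one_of_one_le₀
    rw [Real.one_le_sqrt]
    nlinarith [Real.pi_gt_three]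
  have hΦw : ∀ z : ι → ℝ, Measurable fun R => η R * Φ z R := fun z =>
    hηm.mul (hΦm.comp (measurable_const.prodMk measurable_id))
  have hpoint : ∀ (z : ι → ℝ) (w : Fin m → ℝ),
      gdens ι z * (gdens (Fin m) w *
        ∫⁻ v, Φ z ((∑ j, z j ^ 2 + ∑ j, w j ^ 2) + (v 0 ^ 2 + v 1 ^ 2)) ∂gpi (Fin 2))
      ≤ P w * ∫⁻ R, η R * Φ z R := by
    intro z w
    have htop : gdens ι z * gdens (Fin m) w ≠ ⊤ := by
      rw [gdens_eq, gdens_eq]
      exact ENNReal.mul_ne_top ENNReal.ofReal_ne_top ENNReal.ofReal_ne_top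
    rw [hinner, ← mul_assoc, ← lintegral_const_mul' _ _ htop,
      ← lintegral_const_mul _ (hΦw z)]
    refine lintegral_mono fun R => ?_
    set A := ∑ j, z j ^ 2 + ∑ j, w j ^ 2
    by_cases hR : A < R
    · have hA : (0 : ℝ) ≤ A := by positivity
      have hw : ∑ j, w j ^ 2 ≤ A := le_add_of_nonneg_left (by positivity)
      rw [Set.indicator_of_mem (Set.mem_Ioi.2 hR), hη]
      simp only
      rw [Set.indicator_of_mem (Set.mem_Ioi.2 (lt_of_le_of_lt hA hR)), ← mul_assoc, ← mul_assoc]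
      refine mul_le_mul_left ?_ (Φ z R)
      rw [gdens_eq, gdens_eq, hP]
      simp only
      rw [← ENNReal.ofReal_prod_of_nonneg (fun j _ => by positivity),
        ← ENNReal.ofReal_mul (by positivity), ← ENNReal.ofReal_mul (by positivity),
        ← ENNReal.ofReal_mul (by positivity)]
      refine ENNReal.ofReal_le_ofReal ?_
      rw [Finset.prod_mul_distrib, Finset.prod_const, Finset.card_univ, ← Real.exp_sum,
        Fintype.card_fin]
      have hck : (√(2 * Real.pi))⁻¹ ^ Fintype.card ι ≤ 1 := pow_le_one₀ (by positivity) hc1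
      have hcm : (0 : ℝ) ≤ (√(2 * Real.pi))⁻¹ ^ m := by positivity
      have hsum : ∑ j, -(w j) ^ 2 / 4 = -(∑ j, w j ^ 2) / 4 := by
        rw [← Finset.sum_div, Finset.sum_neg_distrib]
      rw [hsum]
      calc (√(2 * Real.pi))⁻¹ ^ Fintype.card ι * Real.exp (-(∑ i, z i ^ 2) / 2) *
            ((√(2 * Real.pi))⁻¹ ^ m * Real.exp (-(∑ i, w i ^ 2) / 2)) *
            (2⁻¹ * Real.exp (-(R - A) / 2))
          = (√(2 * Real.pi))⁻¹ ^ Fintype.card ι * ((√(2 * Real.pi))⁻¹ ^ m * (2⁻¹ *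
              (Real.exp (-(∑ i, z i ^ 2) / 2) * Real.exp (-(∑ i, w i ^ 2) / 2) *
                Real.exp (-(R - A) / 2)))) := by ring
        _ ≤ 1 * ((√(2 * Real.pi))⁻¹ ^ m * (2⁻¹ *
              Real.exp (-(∑ j, w j ^ 2) / 4 + -R / 4))) := by
            refine mul_le_mul hck ?_ (by positivity) zero_le_one
            refine mul_le_mul_of_nonneg_left ?_ hcm
            refine mul_le_mul_of_nonneg_left ?_ (by norm_num)
            rw [← Real.exp_add, ← Real.exp_add, Real.exp_le_exp]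
            simp only [A] at hR hw ⊢
            linarith
        _ = _ := by rw [Real.exp_add]; ring
    · rw [Set.indicator_of_notMem (by simpa using hR), mul_zero]
      exact zero_le
  have hz : ∀ R : ℝ, 0 < R →
      ∫⁻ z, Φ z R = ENNReal.ofReal (R ^ K / |M.det|) * ∫⁻ y, φ y := by
    intro R hR
    set N : Matrix ι ι ℝ := (√R)⁻¹ • M with hN
    have hsq : (0 : ℝ) < √R := Real.sqrt_pos.2 hR
    have hNd : N.det = (R ^ K)⁻¹ * M.det := by
      rw [hN, det_smul, hι, inv_pow, pow_mul, Real.sq_sqrt hR.le]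
    have hN0 : N.det ≠ 0 := by rw [hNd]; positivity
    have hmap := Real.map_matrix_volume_pi_eq_smul_volume_pi hN0
    have hlin : Measurable (Matrix.toLin' N) :=
      (LinearMap.continuous_of_finiteDimensional _).measurable
    have he : ∀ z, Φ z R = φ (Matrix.toLin' N z) := by
      intro z
      simp only [hΦ, Matrix.toLin'_apply, hN, Matrix.smul_mulVec]
      rfl
    rw [lintegral_congr he, ← lintegral_map hφ hlin, hmap, lintegral_smul_measure,
      smul_eq_mul, hNd]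
    congr 2
    rw [mul_inv, inv_inv, abs_mul, abs_inv, abs_of_pos (pow_pos hR K), div_eq_mul_inv]
  have hV : Measurable fun q : ((ι → ℝ) × (Fin m → ℝ)) × (Fin 2 → ℝ) =>
      Φ q.1.1 ((∑ j, q.1.1 j ^ 2 + ∑ j, q.1.2 j ^ 2) + (q.2 0 ^ 2 + q.2 1 ^ 2)) :=
    hΦm.comp ((measurable_fst.comp measurable_fst).prodMk (by fun_prop))
  have hVw : Measurable fun p : (ι → ℝ) × (Fin m → ℝ) =>
      ∫⁻ v, Φ p.1 ((∑ j, p.1 j ^ 2 + ∑ j, p.2 j ^ 2) + (v 0 ^ 2 + v 1 ^ 2)) ∂gpi (Fin 2) :=
    hV.lintegral_prod_right'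
  have hW : Measurable fun p : (ι → ℝ) × ℝ => η p.2 * Φ p.1 p.2 :=
    (hηm.comp measurable_snd).mul hΦm
  rw [hI]
  calc ∫⁻ z, ∫⁻ w, ∫⁻ v, Φ z ((∑ j, z j ^ 2 + ∑ j, w j ^ 2) + (v 0 ^ 2 + v 1 ^ 2))
          ∂gpi (Fin 2) ∂gpi (Fin m) ∂gpi ι
      = ∫⁻ z, gdens ι z * ∫⁻ w, gdens (Fin m) w *
          ∫⁻ v, Φ z ((∑ j, z j ^ 2 + ∑ j, w j ^ 2) + (v 0 ^ 2 + v 1 ^ 2)) ∂gpi (Fin 2) := by
        rw [lintegral_gpi hVw.lintegral_prod_right']
        refine lintegral_congr fun z => ?_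
        congr 1
        exact lintegral_gpi (hVw.comp (measurable_const.prodMk measurable_id))
    _ ≤ ∫⁻ z, ∫⁻ w, P w * ∫⁻ R, η R * Φ z R := by
        refine lintegral_mono fun z => ?_
        rw [← lintegral_const_mul' _ _ (by rw [gdens_eq]; exact ENNReal.ofReal_ne_top)]
        exact lintegral_mono fun w => hpoint z w
    _ = (∫⁻ w, P w) * ∫⁻ z, ∫⁻ R, η R * Φ z R := by
        rw [← lintegral_const_mul _ hW.lintegral_prod_right']
        refine lintegral_congr fun z => ?_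
        rw [lintegral_mul_const _ hPm]
    _ ≤ 2 ^ m * ∫⁻ R, η R * ∫⁻ z, Φ z R := by
        refine mul_le_mul hPint (le_of_eq ?_) zero_le zero_le
        rw [lintegral_lintegral_swap hW.aemeasurable]
        refine lintegral_congr fun R => ?_
        exact lintegral_const_mul _ (hΦm.comp (measurable_id.prodMk measurable_const))
    _ = 2 ^ m * ((∫⁻ R in Set.Ioi (0 : ℝ),
          ENNReal.ofReal (2⁻¹ * Real.exp (-R / 4) * R ^ K)) *
            (ENNReal.ofReal |M.det|⁻¹ * ∫⁻ y, φ y)) := by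
        congr 1
        rw [← lintegral_mul_const _ (by fun_prop), ← lintegral_indicator measurableSet_Ioi]
        refine lintegral_congr fun R => ?_
        by_cases hR : 0 < R
        · rw [hη]
          simp only
          rw [Set.indicator_of_mem (Set.mem_Ioi.2 hR), Set.indicator_of_mem (Set.mem_Ioi.2 hR),
            hz R hR, ← mul_assoc, ← mul_assoc, ← ENNReal.ofReal_mul (by positivity),
            ← ENNReal.ofReal_mul (by positivity)]
          congr 2
          ring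
        · rw [hη]
          simp only
          rw [Set.indicator_of_notMem (by simpa using hR),
            Set.indicator_of_notMem (by simpa using hR), zero_mul]
    _ ≤ 2 ^ m * (ENNReal.ofReal (4 * (K.factorial * 8 ^ K)) *
            (ENNReal.ofReal |M.det|⁻¹ * ∫⁻ y, φ y)) := by
        gcongr
        exact lintegral_pow_exp K
    _ = _ := by
        rw [habs, ← mul_assoc, ← mul_assoc, show (2 : ℝ≥0∞) ^ m = ENNReal.ofReal (2 ^ m) by
          rw [ENNReal.ofReal_pow (by norm_num), ENNReal.ofReal_ofNat],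
          ← ENNReal.ofReal_mul (by positivity), ← ENNReal.ofReal_mul (by positivity)]
        congr 2
        ring

end Vale.Agent.P309
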